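import Vale.Agent.P011.H83.Scaling

/-!
# Contracting units

A ring is contracting if it has a unit whose powers tend to `0`. Products of contracting rings are
contracting.
-/

open Filter Topology Set

namespace Vale.Agent.P011.H83

/-- There is a unit whose powers tend to `0`. -/
def Contr (R : Type*) [MonoidWithZero R] [TopologicalSpace R] : Prop :=
  ∃ r : Rˣ, Tendsto (fun k : ℕ => (r : R) ^ k) atTop (𝓝 0)

theorem Contr.of_ne_zero {F : Type*} [Field F] [TopologicalSpace F] {x : F} (hx : x ≠ 0)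
    (h : Tendsto (fun k : ℕ => x ^ k) atTop (𝓝 0)) : Contr F :=
  ⟨Units.mk0 x hx, h⟩

theorem Contr.of_norm {F : Type*} [NormedField F] {x : F} (hx : x ≠ 0) (h : ‖x‖ < 1) : Contr F :=
  Contr.of_ne_zero hx (tendsto_pow_atTop_nhds_zero_of_norm_lt_one h)

theorem Contr.prod {R R' : Type*} [MonoidWithZero R] [TopologicalSpace R] [MonoidWithZero R']
    [TopologicalSpace R'] (h : Contr R) (h' : Contr R') : Contr (R × R') := by
  obtain ⟨r, hr⟩ := h
  obtain ⟨r', hr'⟩ := h'
  exact ⟨MulEquiv.prodUnits.symm (r, r'), hr.prodMk_nhds hr'⟩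

theorem Contr.pi {ι : Type*} {R : ι → Type*} [∀ i, MonoidWithZero (R i)]
    [∀ i, TopologicalSpace (R i)] (h : ∀ i, Contr (R i)) : Contr (∀ i, R i) := by
  choose r hr using h
  exact ⟨MulEquiv.piUnits.symm r, tendsto_pi_nhds.2 fun i => hr i⟩

end Vale.Agent.P011.H83
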