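import Vale.Agent.P011.H83.Contr
import Vale.Agent.P011.H544.SInt

/-!
# `k_S` has a contracting unit (number fields)
-/

open Filter Topology Set NumberField IsDedekindDomain

namespace Vale.Agent.P011.H83

variable (k : Type) [Field k] [NumberField k] (S : Finset (HeightOneSpectrum (𝓞 k)))

theorem contr_inf (v : InfinitePlace k) : Contr v.Completion := by
  have h := H544.norm_rat v (1 / 2)
  refine Contr.of_norm (x := algebraMap k v.Completion ((1 / 2 : ℚ) : k)) ?_ ?_
  · intro h0
    rw [h0, norm_zero] at h
    norm_num at h
  · rw [h]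
    norm_num

theorem contr_fin (v : HeightOneSpectrum (𝓞 k)) : Contr (v.adicCompletion k) := by
  obtain ⟨π, hπ⟩ := v.valuation_exists_uniformizer k
  have h1 : Valued.v (π : v.adicCompletion k) = v.valuation k π := v.valuedAdicCompletion_eq_valuation' π
  refine Contr.of_ne_zero (x := (π : v.adicCompletion k)) ?_ ?_
  · intro h0
    rw [h0, map_zero, hπ] at h1
    exact WithZero.coe_ne_zero h1.symm
  · refine Valued.tendsto_zero_pow_of_v_lt_one ?_
    rw [h1, hπ]
    rw [← WithZero.exp_zero]
    exact WithZero.exp_lt_exp.2 (by norm_num)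

/-- **Number fields:** `k_S` has a contracting unit. -/
theorem contr_KS : Contr (H544.KS k S) :=
  (Contr.pi fun v => contr_inf k v).prod (Contr.pi fun v => contr_fin k v)

end Vale.Agent.P011.H83
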