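import Vale.Agent.P011.H83.Contr
import Vale.Agent.P011.H271.KSF

/-!
# `k_S` has a contracting unit (function fields)
-/

open Filter Topology Set

namespace Vale.Agent.P011.H83

open Vale.Agent.P011.H738 Vale.Agent.P011.H271

variable {k : Type} [Field k] [GFF k]

theorem contr_comp (v : Place k) : Contr v.comp := by
  obtain ⟨x, hx⟩ := v.normalized.2.1
  have hx' : v.abv x = qq v := hx
  have h0 : x ≠ 0 := by
    rintro rfl
    rw [map_zero] at hx'
    exact (qq_pos v).ne hx'
  refine Contr.of_norm (x := algebraMap k v.comp x⁻¹) ?_ ?_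
  · intro h
    have h1 := norm_alg v x⁻¹
    rw [h, norm_zero, map_inv₀, hx'] at h1
    exact (inv_pos.2 (qq_pos v)).ne h1
  · rw [norm_alg, map_inv₀, hx']
    exact inv_lt_one_of_one_lt₀ (one_lt_qq' v)

/-- **Function fields:** `k_S` has a contracting unit. -/
theorem contr_KSF (S : Finset (Place k)) : Contr (KSF S) :=
  Contr.pi fun v => contr_comp (v : Place k)

end Vale.Agent.P011.H83
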