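import Mathlib.RingTheory.DedekindDomain.AdicValuation

/-!
# The norm of `w = ν^M x + 1` at the places where `ν` is not a unit (module (R4) of the
doubling 3 -> 6)
-/

namespace Vale.Agent.P011.H83.NuNorm

open WithZero

variable {K : Type*} [Field K]

/-- The reduced norm of `ν^M x + 1`, `x` of degree three with reduced norm `ν`. -/
def nn (ν t1 s1 : K) (M : ℕ) : K := ν ^ (3 * M + 1) + ν ^ (2 * M) * s1 + ν ^ M * t1 + 1

/-- Its norm over the group generated by `σ`, `τ`. -/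
def NN (σ τ : K →+* K) (ν t1 s1 : K) (M : ℕ) : K :=
  nn ν t1 s1 M * σ (nn ν t1 s1 M) * τ (nn ν t1 s1 M) * τ (σ (nn ν t1 s1 M))

theorem map_nn (σ : K →+* K) (ν t1 s1 : K) (M : ℕ) :
    σ (nn ν t1 s1 M) = nn (σ ν) (σ t1) (σ s1) M := by
  simp only [nn, map_add, map_mul, map_pow, map_one]

section val

variable (V : Valuation K ℤᵐ⁰)

theorem near_mul {a b : K} (ha : V (a - 1) < 1) (hb : V (b - 1) < 1) : V (a * b - 1) < 1 := by
  have h1 : V b ≤ 1 := by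
    have e : b = (b - 1) + 1 := by ring
    rw [e]
    exact V.map_add_le hb.le (by rw [map_one])
  have e : a * b - 1 = (a - 1) * b + (b - 1) := by ring
  rw [e]
  refine V.map_add_lt ?_ hb
  rw [map_mul]
  calc V (a - 1) * V b ≤ V (a - 1) * 1 := mul_le_mul_right h1 _
    _ < 1 := by rw [mul_one]; exact ha

/-- Powers of a small element are eventually smaller than anything. -/
theorem ev_small {x : K} (hx : V x < 1) (a : K) : ∃ M0 : ℕ, ∀ M ≥ M0, V (x ^ M * a) < 1 := by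
  by_cases ha : a = 0
  · exact ⟨0, fun M _ => by rw [ha, mul_zero, map_zero]; exact zero_lt_one⟩
  have ha0 : V a ≠ 0 := (Valuation.ne_zero_iff V).2 ha
  by_cases hx0 : x = 0
  · refine ⟨1, fun M hM => ?_⟩
    rw [hx0, zero_pow (by omega), zero_mul, map_zero]
    exact zero_lt_one
  have hx0' : V x ≠ 0 := (Valuation.ne_zero_iff V).2 hx0
  refine ⟨(log (V a)).toNat + 1, fun M hM => ?_⟩
  have h1 : log (V x) < 0 := by
    rw [← log_one]
    exact (log_lt_log hx0' one_ne_zero).2 hx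
  have h2 := Int.self_le_toNat (log (V a))
  rw [map_mul, map_pow, ← exp_log ha0, ← exp_log hx0', ← exp_nsmul, ← exp_add, ← exp_zero,
    exp_lt_exp]
  simp only [nsmul_eq_mul]
  have h3 : (M : ℤ) * log (V x) ≤ (M : ℤ) * (-1) :=
    mul_le_mul_of_nonneg_left (by omega) (by positivity)
  have h4 : ((log (V a)).toNat : ℤ) + 1 ≤ M := by exact_mod_cast hM
  omega

theorem le_of_small {x : K} (hx : V x < 1) {n m : ℕ} (h : m ≤ n) (a : K)
    (h1 : V (x ^ m * a) < 1) : V (x ^ n * a) < 1 := by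
  obtain ⟨j, rfl⟩ := Nat.exists_eq_add_of_le h
  have e : x ^ (m + j) * a = x ^ j * (x ^ m * a) := by rw [pow_add]; ring
  rw [e, map_mul, map_pow]
  calc V x ^ j * V (x ^ m * a) ≤ 1 * V (x ^ m * a) := mul_le_mul_left (pow_le_one' hx.le j) _
    _ < 1 := by rw [one_mul]; exact h1

/-- `nn` near `1` at the places where `x` is small. -/
theorem nn_small {x : K} (hx : V x < 1) (t s : K) :
    ∃ M0 : ℕ, ∀ M ≥ M0, V (nn x t s M - 1) < 1 := by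
  obtain ⟨M1, h1⟩ := ev_small V hx t
  obtain ⟨M2, h2⟩ := ev_small V hx s
  obtain ⟨M3, h3⟩ := ev_small V hx 1
  refine ⟨M1 + M2 + M3, fun M hM => ?_⟩
  have e : nn x t s M - 1 = x ^ (3 * M + 1) * 1 + x ^ (2 * M) * s + x ^ M * t := by
    rw [nn]; ring
  rw [e]
  refine V.map_add_lt (V.map_add_lt ?_ ?_) (h1 M (by omega))
  · exact le_of_small V hx (by omega) 1 (h3 M (by omega))
  · exact le_of_small V hx (by omega) s (h2 M (by omega))

/-- `nn` at `x⁻¹`. -/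
theorem nn_inv {x : K} (hx0 : x ≠ 0) (hx : V x < 1) (t s : K) :
    ∃ M0 : ℕ, ∀ M ≥ M0, V (nn x⁻¹ t s M * x ^ (3 * M + 1) - 1) < 1 := by
  obtain ⟨M1, h1⟩ := ev_small V hx t
  obtain ⟨M2, h2⟩ := ev_small V hx s
  obtain ⟨M3, h3⟩ := ev_small V hx 1
  refine ⟨M1 + M2 + M3, fun M hM => ?_⟩
  have e1 : x⁻¹ ^ (3 * M + 1) * x ^ (3 * M + 1) = 1 := by
    rw [← mul_pow, inv_mul_cancel₀ hx0, one_pow]
  have e2 : x⁻¹ ^ (2 * M) * x ^ (3 * M + 1) = x ^ (M + 1) := by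
    rw [show 3 * M + 1 = 2 * M + (M + 1) by ring, pow_add x, ← mul_assoc, ← mul_pow,
      inv_mul_cancel₀ hx0, one_pow, one_mul]
  have e3 : x⁻¹ ^ M * x ^ (3 * M + 1) = x ^ (2 * M + 1) := by
    rw [show 3 * M + 1 = M + (2 * M + 1) by ring, pow_add x, ← mul_assoc, ← mul_pow,
      inv_mul_cancel₀ hx0, one_pow, one_mul]
  have e : nn x⁻¹ t s M * x ^ (3 * M + 1) - 1 =
      x ^ (M + 1) * s + x ^ (2 * M + 1) * t + x ^ (3 * M + 1) * 1 := by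
    rw [nn, add_mul, add_mul, add_mul, e1, mul_right_comm, e2, mul_right_comm (x⁻¹ ^ M), e3]
    ring
  rw [e]
  refine V.map_add_lt (V.map_add_lt ?_ ?_) ?_
  · exact le_of_small V hx (by omega) s (h2 M (by omega))
  · exact le_of_small V hx (by omega) t (h1 M (by omega))
  · exact le_of_small V hx (by omega) 1 (h3 M (by omega))

/-- The product. -/
theorem nn_prod {x : K} (hx0 : x ≠ 0) (hx : V x < 1) (t0 s0 t1 s1 t2 s2 t3 s3 : K) :
    ∃ M0 : ℕ, ∀ M ≥ M0, V (nn x t0 s0 M * nn x t1 s1 M * nn x⁻¹ t2 s2 M * nn x⁻¹ t3 s3 M *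
      x ^ (2 * (3 * M + 1)) - 1) < 1 := by
  obtain ⟨M0, h0⟩ := nn_small V hx t0 s0
  obtain ⟨M1, h1⟩ := nn_small V hx t1 s1
  obtain ⟨M2, h2⟩ := nn_inv V hx0 hx t2 s2
  obtain ⟨M3, h3⟩ := nn_inv V hx0 hx t3 s3
  refine ⟨M0 + M1 + M2 + M3, fun M hM => ?_⟩
  have h := near_mul V (near_mul V (h0 M (by omega)) (h1 M (by omega)))
    (near_mul V (h2 M (by omega)) (h3 M (by omega)))
  have e : nn x t0 s0 M * nn x t1 s1 M * nn x⁻¹ t2 s2 M * nn x⁻¹ t3 s3 M *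
      x ^ (2 * (3 * M + 1)) = nn x t0 s0 M * nn x t1 s1 M *
      (nn x⁻¹ t2 s2 M * x ^ (3 * M + 1) * (nn x⁻¹ t3 s3 M * x ^ (3 * M + 1))) := by
    rw [two_mul, pow_add x]
    ring
  rw [e]
  exact h

/-- **(R4)** -/
theorem nu_norm (σ τ : K →+* K) {ν : K} (t1 s1 : K) (h0 : ν ≠ 0) (hσ : σ ν = ν⁻¹)
    (hτ : τ ν = ν⁻¹) :
    (V ν < 1 → ∃ M0 : ℕ, ∀ M ≥ M0,
      V (NN σ τ ν t1 s1 M * ν ^ (2 * (3 * M + 1)) - 1) < 1) ∧
    (1 < V ν → ∃ M0 : ℕ, ∀ M ≥ M0,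
      V (NN σ τ ν t1 s1 M / ν ^ (2 * (3 * M + 1)) - 1) < 1) := by
  have hστ : τ (σ ν) = ν := by rw [hσ, map_inv₀, hτ, inv_inv]
  constructor
  · intro hν
    obtain ⟨M0, h⟩ := nn_prod V h0 hν t1 s1 (τ (σ t1)) (τ (σ s1)) (σ t1) (σ s1) (τ t1) (τ s1)
    refine ⟨M0, fun M hM => ?_⟩
    have e : NN σ τ ν t1 s1 M = nn ν t1 s1 M * nn ν (τ (σ t1)) (τ (σ s1)) M *
        nn ν⁻¹ (σ t1) (σ s1) M * nn ν⁻¹ (τ t1) (τ s1) M := by
      rw [NN, map_nn σ, map_nn τ, map_nn τ, hσ, hτ, map_inv₀, hτ, inv_inv]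
      ring
    rw [e]
    exact h M hM
  · intro hν
    have hν' : V ν⁻¹ < 1 := by
      rw [map_inv₀]
      exact inv_lt_one_of_one_lt₀ hν
    obtain ⟨M0, h⟩ := nn_prod V (inv_ne_zero h0) hν' (σ t1) (σ s1) (τ t1) (τ s1)
      t1 s1 (τ (σ t1)) (τ (σ s1))
    refine ⟨M0, fun M hM => ?_⟩
    have e : NN σ τ ν t1 s1 M / ν ^ (2 * (3 * M + 1)) = nn ν⁻¹ (σ t1) (σ s1) M *
        nn ν⁻¹ (τ t1) (τ s1) M * nn ν⁻¹⁻¹ t1 s1 M * nn ν⁻¹⁻¹ (τ (σ t1)) (τ (σ s1)) M *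
        ν⁻¹ ^ (2 * (3 * M + 1)) := by
      rw [NN, map_nn σ, map_nn τ, map_nn τ, hσ, hτ, map_inv₀, hτ, inv_inv, inv_pow,
        div_eq_mul_inv]
      ring
    rw [e]
    exact h M hM

end val

end Vale.Agent.P011.H83.NuNorm
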