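import Vale.Agent.P011.H359.PenD
import Vale.Agent.P011.H182.Nma

/-!
# `Cop` is an open condition (module (P2) of the doubling 3 -> 6)

Continuity with respect to an arbitrary absolute value of the field: coefficients of the powers of
a pencil, the three polynomials of a pencil, the resultants.
-/

open Polynomial Filter Topology

set_option linter.unusedSectionVars false

namespace Vale.Agent.P011.H83.CopNear

open Vale.Agent.P011.H359 Vale.Agent.P011.H182

section limits

variable {k : Type*} [Field k] (a : AbsoluteValue k ℝ) {X : Type*} {F : Filter X}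

/-- `f → c` along `F` for the absolute value `a`. -/
def Ct (F : Filter X) (f : X → k) (c : k) : Prop := Tendsto (fun x => a (f x - c)) F (𝓝 0)

variable {a}

theorem Ct.const (c : k) : Ct a F (fun _ => c) c := by
  simp only [Ct, sub_self, map_zero]
  exact tendsto_const_nhds

theorem Ct.add {f g : X → k} {c d : k} (hf : Ct a F f c) (hg : Ct a F g d) :
    Ct a F (fun x => f x + g x) (c + d) := by
  have h := Tendsto.add (f := fun x => a (f x - c)) (g := fun x => a (g x - d)) hf hg
  rw [add_zero] at h
  refine squeeze_zero (fun x => a.nonneg _) (fun x => ?_) h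
  have e : f x + g x - (c + d) = (f x - c) + (g x - d) := by ring
  rw [e]
  exact a.add_le _ _

theorem Ct.mul {f g : X → k} {c d : k} (hf : Ct a F f c) (hg : Ct a F g d) :
    Ct a F (fun x => f x * g x) (c * d) := by
  have h1 : Tendsto (fun x => a (f x - c) * (a (g x - d) + a d) + a c * a (g x - d)) F
      (𝓝 (0 * (0 + a d) + a c * 0)) :=
    (Tendsto.mul hf (Tendsto.add hg tendsto_const_nhds)).add (Tendsto.mul tendsto_const_nhds hg)
  rw [zero_mul, mul_zero, add_zero] at h1
  refine squeeze_zero (fun x => a.nonneg _) (fun x => ?_) h1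
  have e : f x * g x - c * d = (f x - c) * g x + c * (g x - d) := by ring
  have e2 : a (g x) ≤ a (g x - d) + a d := by
    have := a.add_le (g x - d) d
    rwa [sub_add_cancel] at this
  rw [e]
  refine (a.add_le _ _).trans ?_
  rw [map_mul, map_mul]
  exact add_le_add (mul_le_mul_of_nonneg_left e2 (a.nonneg _)) le_rfl

theorem Ct.cmul {f : X → k} {c : k} (e : k) (hf : Ct a F f c) :
    Ct a F (fun x => e * f x) (e * c) := (Ct.const e).mul hf

theorem Ct.sub {f g : X → k} {c d : k} (hf : Ct a F f c) (hg : Ct a F g d) :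
    Ct a F (fun x => f x - g x) (c - d) := by
  have h := hf.add (hg.cmul (-1))
  simpa only [neg_mul, one_mul, ← sub_eq_add_neg] using h

theorem Ct.sum {ι : Type*} {s : Finset ι} {f : ι → X → k} {c : ι → k}
    (h : ∀ i ∈ s, Ct a F (f i) (c i)) : Ct a F (fun x => ∑ i ∈ s, f i x) (∑ i ∈ s, c i) := by
  classical
  induction s using Finset.induction_on with
  | empty => simpa using Ct.const (a := a) (F := F) 0
  | insert i s hi ih =>
    simp only [Finset.sum_insert hi]
    exact (h i (Finset.mem_insert_self _ _)).add (ih fun j hj => h j (Finset.mem_insert_of_mem hj))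

theorem Ct.prod {ι : Type*} {s : Finset ι} {f : ι → X → k} {c : ι → k}
    (h : ∀ i ∈ s, Ct a F (f i) (c i)) : Ct a F (fun x => ∏ i ∈ s, f i x) (∏ i ∈ s, c i) := by
  classical
  induction s using Finset.induction_on with
  | empty => simpa using Ct.const (a := a) (F := F) 1
  | insert i s hi ih =>
    simp only [Finset.prod_insert hi]
    exact (h i (Finset.mem_insert_self _ _)).mul (ih fun j hj => h j (Finset.mem_insert_of_mem hj))

theorem Ct.det {ι : Type*} [Fintype ι] [DecidableEq ι] {f : X → Matrix ι ι k} {c : Matrix ι ι k}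
    (h : ∀ i j, Ct a F (fun x => f x i j) (c i j)) : Ct a F (fun x => (f x).det) c.det := by
  simp only [Matrix.det_apply']
  exact Ct.sum fun σ _ => (Ct.prod fun i _ => h _ _).cmul _

/-- A limit which is not zero. -/
theorem Ct.ne_zero {f : X → k} {c : k} (h : Ct a F f c) (hc : c ≠ 0) : ∀ᶠ x in F, f x ≠ 0 := by
  have h1 : ∀ᶠ x in F, a (f x - c) < a c :=
    Tendsto.eventually_lt h tendsto_const_nhds (a.pos hc)
  filter_upwards [h1] with x hx h0
  rw [h0, zero_sub, AbsoluteValue.map_neg] at hx
  exact lt_irrefl _ hx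

variable (a) in
/-- Coefficientwise limits of polynomials. -/
def CtP (F : Filter X) (f : X → k[X]) (c : k[X]) : Prop :=
  ∀ m, Ct a F (fun x => (f x).coeff m) (c.coeff m)

theorem CtP.const (c : k[X]) : CtP a F (fun _ => c) c := fun _ => Ct.const _

theorem CtP.add {f g : X → k[X]} {c d : k[X]} (hf : CtP a F f c) (hg : CtP a F g d) :
    CtP a F (fun x => f x + g x) (c + d) := fun m => by
  simp only [coeff_add]
  exact (hf m).add (hg m)

theorem CtP.sub {f g : X → k[X]} {c d : k[X]} (hf : CtP a F f c) (hg : CtP a F g d) :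
    CtP a F (fun x => f x - g x) (c - d) := fun m => by
  simp only [coeff_sub]
  exact (hf m).sub (hg m)

theorem CtP.mul {f g : X → k[X]} {c d : k[X]} (hf : CtP a F f c) (hg : CtP a F g d) :
    CtP a F (fun x => f x * g x) (c * d) := fun m => by
  simp only [coeff_mul]
  exact Ct.sum fun i _ => (hf _).mul (hg _)

theorem CtP.cmul {f : X → k[X]} {c : k[X]} (e : k[X]) (hf : CtP a F f c) :
    CtP a F (fun x => e * f x) (e * c) := (CtP.const e).mul hf

theorem CtP.pow {f : X → k[X]} {c : k[X]} (hf : CtP a F f c) (n : ℕ) :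
    CtP a F (fun x => f x ^ n) (c ^ n) := by
  induction n with
  | zero =>
    simp only [pow_zero]
    exact CtP.const _
  | succ n ih =>
    simp only [pow_succ]
    exact ih.mul hf

theorem CtP.resultant {f g : X → k[X]} {c d : k[X]} (hf : CtP a F f c) (hg : CtP a F g d)
    (m n : ℕ) : Ct a F (fun x => Polynomial.resultant (f x) (g x) m n)
      (Polynomial.resultant c d m n) := by
  simp only [Polynomial.resultant]
  refine Ct.det fun i j => ?_
  induction j using Fin.addCases with
  | left j =>
    simp only [sylvester, Matrix.of_apply, Fin.addCases_left]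
    split_ifs
    · exact hg _
    · exact Ct.const _
  | right j =>
    simp only [sylvester, Matrix.of_apply, Fin.addCases_right]
    split_ifs
    · exact hf _
    · exact Ct.const _

end limits

section alg

variable {k D : Type} [Field k] [Ring D] [Algebra k D] {N : ℕ} (B : Module.Basis (Fin N) k D)
  (a : AbsoluteValue k ℝ) {X : Type*} {F : Filter X}

/-- Coordinatewise limits in the algebra. -/
def CtD (F : Filter X) (f : X → D) (c : D) : Prop :=
  ∀ i, Ct a F (fun x => B.repr (f x) i) (B.repr c i)

variable {B a}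

theorem CtD.const (c : D) : CtD B a F (fun _ => c) c := fun _ => Ct.const _

theorem CtD.add {f g : X → D} {c d : D} (hf : CtD B a F f c) (hg : CtD B a F g d) :
    CtD B a F (fun x => f x + g x) (c + d) := fun i => by
  simp only [map_add, Finsupp.add_apply]
  exact (hf i).add (hg i)

theorem repr_mul (x y : D) (i : Fin N) : B.repr (x * y) i =
    ∑ j, ∑ l, B.repr x j * B.repr y l * B.repr (B j * B l) i := by
  conv_lhs => rw [← B.sum_repr x, ← B.sum_repr y]
  simp only [Finset.sum_mul, Finset.mul_sum, map_sum, smul_mul_smul_comm, map_smul,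
    Finsupp.coe_finsetSum, Finset.sum_apply, Finsupp.smul_apply, smul_eq_mul]
  exact Finset.sum_comm

theorem CtD.mul {f g : X → D} {c d : D} (hf : CtD B a F f c) (hg : CtD B a F g d) :
    CtD B a F (fun x => f x * g x) (c * d) := fun i => by
  have e : ∀ x, B.repr (f x * g x) i =
      ∑ j, ∑ l, B.repr (f x) j * B.repr (g x) l * B.repr (B j * B l) i := fun x => repr_mul _ _ i
  simp only [e]
  rw [repr_mul c d i]
  exact Ct.sum fun j _ => Ct.sum fun l _ => ((hf j).mul (hg l)).mul (Ct.const _)

theorem CtD.lin {f : X → D} {c : D} (hf : CtD B a F f c) (tr : D →ₗ[k] k) :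
    Ct a F (fun x => tr (f x)) (tr c) := by
  have e : ∀ z : D, tr z = ∑ i, B.repr z i * tr (B i) := by
    intro z
    conv_lhs => rw [← B.sum_repr z]
    simp only [map_sum, map_smul, smul_eq_mul]
  have e1 : ∀ x, tr (f x) = ∑ i, B.repr (f x) i * tr (B i) := fun x => e _
  simp only [e1]
  rw [e c]
  exact Ct.sum fun i _ => (hf i).mul (Ct.const _)

/-- The coefficients of the powers of a pencil. -/
theorem CtD.pen {g : X → D} {c : D} (x : D) (hg : CtD B a F g c) (n m : ℕ) :
    CtD B a F (fun y => ((C x + C (g y) * Polynomial.X) ^ n : D[X]).coeff m)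
      (((C x + C c * Polynomial.X) ^ n : D[X]).coeff m) := by
  induction n generalizing m with
  | zero =>
    simp only [pow_zero]
    exact CtD.const _
  | succ n ih =>
    have e : ∀ y : D, ((C x + C y * Polynomial.X) ^ (n + 1) : D[X]).coeff m =
        ((C x + C y * Polynomial.X) ^ n : D[X]).coeff m * x +
        (if m = 0 then 0 else ((C x + C y * Polynomial.X) ^ n : D[X]).coeff (m - 1) * y) := by
      intro y
      rw [pow_succ, mul_add, coeff_add, coeff_mul_C, ← mul_assoc]
      congr 1
      cases m with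
      | zero => simp
      | succ m =>
        rw [coeff_mul_X, coeff_mul_C]
        simp
    simp only [e]
    refine ((ih m).mul (CtD.const x)).add ?_
    split_ifs
    · exact CtD.const _
    · exact (ih _).mul hg

theorem pwr_coeff (tr : D →ₗ[k] k) (x y : D) (n m : ℕ) :
    (pwr tr x y n).coeff m = tr (((C x + C y * Polynomial.X) ^ n : D[X]).coeff m) := by
  rw [pwr, finsetSum_coeff]
  simp only [coeff_C_mul_X_pow]
  rw [Finset.sum_ite_eq]
  split_ifs with h
  · rfl
  · rw [coeff_eq_zero_of_natDegree_lt, map_zero]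
    refine lt_of_le_of_lt (pen_natDegree x y n) ?_
    simpa using h

theorem CtP.pwr {g : X → D} {c : D} (tr : D →ₗ[k] k) (x : D) (hg : CtD B a F g c) (n : ℕ) :
    CtP a F (fun y => Vale.Agent.P011.H359.pwr tr x (g y) n)
      (Vale.Agent.P011.H359.pwr tr x c n) := fun m => by
  simp only [pwr_coeff]
  exact (CtD.pen x hg n m).lin tr

theorem CtP.PE1 {g : X → D} {c : D} (tr : D →ₗ[k] k) (x : D) (hg : CtD B a F g c) :
    CtP a F (fun y => Vale.Agent.P011.H359.PE1 tr x (g y)) (Vale.Agent.P011.H359.PE1 tr x c) :=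
  CtP.pwr tr x hg 2

theorem CtP.PE2 {g : X → D} {c : D} (tr : D →ₗ[k] k) (x : D) (hg : CtD B a F g c) :
    CtP a F (fun y => Vale.Agent.P011.H359.PE2 tr x (g y)) (Vale.Agent.P011.H359.PE2 tr x c) :=
  (((CtP.PE1 tr x hg).pow 2).sub (CtP.pwr tr x hg 4)).cmul _

theorem CtP.PE3 {g : X → D} {c : D} (tr : D →ₗ[k] k) (x : D) (hg : CtD B a F g c) :
    CtP a F (fun y => Vale.Agent.P011.H359.PE3 tr x (g y)) (Vale.Agent.P011.H359.PE3 tr x c) :=
  (((((CtP.PE1 tr x hg).pow 3).sub (((CtP.PE1 tr x hg).cmul 3).mul (CtP.pwr tr x hg 4))).add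
    ((CtP.pwr tr x hg 6).cmul 2))).cmul _

/-- `Cop` is an open condition, along any filter. -/
theorem cop_eventually {g : X → D} {c : D} (tr : D →ₗ[k] k) (x : D) (hg : CtD B a F g c)
    (h : Cop tr x c) : ∀ᶠ y in F, Cop tr x (g y) := by
  have h1 := CtP.PE1 tr x hg
  have h2 := CtP.PE2 tr x hg
  have h3 := CtP.PE3 tr x hg
  have r1 := CtP.resultant ((h1.pow 2).sub (h2.cmul 3)) ((h1.mul h2).sub (h3.cmul 9)) 4 6
  have r2 := CtP.resultant h2 h3 4 6
  filter_upwards [r1.ne_zero h.1, r2.ne_zero h.2] with y hy1 hy2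
  exact ⟨hy1, hy2⟩

end alg

section main

variable {k D : Type} [Field k] [DivisionRing D] [Algebra k D] {N : ℕ}
  (B : Module.Basis (Fin N) k D)

/-- **(P2)**, any absolute value. -/
theorem cop_near_abv (a : AbsoluteValue k ℝ) (tr : D →ₗ[k] k) (x y0 : D) (h : Cop tr x y0) :
    ∃ ε : ℝ, 0 < ε ∧ ∀ y : D, na B a (y - y0) < ε → Cop tr x y := by
  have hg : CtD B a (comap (fun y => na B a (y - y0)) (𝓝 0)) (fun y => y) y0 := by
    intro i
    have h1 : Tendsto (fun y => na B a (y - y0)) (comap (fun y => na B a (y - y0)) (𝓝 0))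
      (𝓝 0) := tendsto_comap
    refine squeeze_zero (fun y => a.nonneg _) (fun y => ?_) h1
    have h2 := coord_le_na B a (y - y0) i
    rwa [map_sub, Finsupp.sub_apply] at h2
  have h1 := cop_eventually tr x hg h
  rw [Filter.eventually_comap] at h1
  obtain ⟨ε, hε, h2⟩ := Metric.eventually_nhds_iff.1 h1
  refine ⟨ε, hε, fun y hy => h2 ?_ y rfl⟩
  rw [Real.dist_eq, sub_zero, abs_of_nonneg (na_nonneg B a _)]
  exact hy

end main

section nf

open Vale.Agent.P011.Even Vale.Agent.P011.Arith

variable {k D : Type} [Field k] [NumberField k] [DivisionRing D] [Algebra k D] {N : ℕ}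
  (B : Module.Basis (Fin N) k D)

/-- **(P2)** in the letters of the places of a number field. -/
theorem cop_near (p : Pl k) (tr : D →ₗ[k] k) (x y0 : D) (h : Cop tr x y0) :
    ∃ ε : ℝ, 0 < ε ∧ ∀ y : D, nm B p (y - y0) < ε → Cop tr x y :=
  cop_near_abv B (plAbv p) tr x y0 h

end nf

end Vale.Agent.P011.H83.CopNear
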