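import Vale.Agent.P011.H83.LimMeas

/-!
# Uniform distribution of the colours (abstract form)

`G` is a locally compact group, `ν a r` (`a` along a filter, `r` in a finite group `R`) is a
family of measures on `G` which is equivariant under left and right translations by a countable
group `Γ` with colours `c : Γ → R`, and which is asymptotically bounded by a multiple of Haar
measure. If every bounded measurable function on `G` which is left and right invariant under
`ker c` is left invariant under `Γ` (the output of Mautner's lemma), then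
`∫ φ d(ν a r) - ∫ φ d(ν a r') → 0` for all `r, r'` and all compactly supported continuous `φ`.
-/

open MeasureTheory Filter Topology
open scoped CompactlySupported ENNReal NNReal

namespace Vale.Agent.P011.H83

section general

variable {X : Type*} [TopologicalSpace X] [MeasurableSpace X] [BorelSpace X]

/-- The image of a measure with a density under a measure preserving homeomorphism. -/
theorem map_withDensity_homeo (μ : Measure X) (T : X ≃ₜ X) (hT : μ.map T = μ) {E : X → ℝ≥0∞}
    (hE : Measurable E) : (μ.withDensity E).map T = μ.withDensity fun x => E (T.symm x) := by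
  have hmp : MeasurePreserving T μ μ := ⟨T.measurable, hT⟩
  ext s hs
  have h1 := hmp.setLIntegral_comp_preimage hs (f := fun x => E (T.symm x))
    (hE.comp T.symm.measurable)
  rw [Measure.map_apply T.measurable hs, withDensity_apply _ (T.measurable hs),
    withDensity_apply _ hs, ← h1]
  simp

/-- Composition of a compactly supported function with a homeomorphism. -/
def compH (φ : C_c(X, ℝ)) (T : X ≃ₜ X) : C_c(X, ℝ) where
  toFun := fun x => φ (T x)
  continuous_toFun := φ.continuous.comp T.continuous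
  hasCompactSupport' := φ.hasCompactSupport.comp_homeomorph T

omit [MeasurableSpace X] [BorelSpace X] in
theorem compH_apply (φ : C_c(X, ℝ)) (T : X ≃ₜ X) (x : X) : compH φ T x = φ (T x) := rfl

/-- The absolute value. -/
noncomputable def absC (φ : C_c(X, ℝ)) : C_c(X, ℝ) where
  toFun := fun x => |φ x|
  continuous_toFun := φ.continuous.abs
  hasCompactSupport' := by
    refine φ.hasCompactSupport.mono' fun x hx => ?_
    rw [Function.mem_support] at hx
    exact subset_tsupport _ (by
      rw [Function.mem_support]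
      intro h
      exact hx (by rw [h, abs_zero]))

omit [MeasurableSpace X] [BorelSpace X] in
theorem absC_apply (φ : C_c(X, ℝ)) (x : X) : absC φ x = |φ x| := rfl

end general

section group

variable {G : Type*} [Group G] [TopologicalSpace G] [IsTopologicalGroup G]

/-- Left and right translation. -/
def LR (x y : G) : G ≃ₜ G := (Homeomorph.mulLeft x).trans (Homeomorph.mulRight y)

theorem LR_apply (x y g : G) : LR x y g = x * g * y := rfl

theorem LR_symm_apply (x y g : G) : (LR x y).symm g = x⁻¹ * (g * y⁻¹) := rfl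

variable [LocallyCompactSpace G] [T2Space G] [MeasurableSpace G] [BorelSpace G]
  [SecondCountableTopology G]

omit [LocallyCompactSpace G] [T2Space G] [SecondCountableTopology G] in
theorem map_LR (μ : Measure G) [μ.IsMulLeftInvariant] [μ.IsMulRightInvariant] (x y : G) :
    μ.map (LR x y) = μ := by
  have h1 : (LR x y : G → G) = (fun g => g * y) ∘ (fun g => x * g) := rfl
  rw [h1, ← Measure.map_map (measurable_mul_const y) (measurable_const_mul x),
    map_mul_left_eq_self, map_mul_right_eq_self]

/-- The **uniform distribution of colours**, abstract form: two colours in the same coset of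
the image of `Γ`. -/
theorem unif_colours_coset (μ : Measure G) [μ.IsHaarMeasure] [μ.IsMulRightInvariant]
    {A Γ R : Type*} (l : Filter A) [Group Γ] [Countable Γ] [Group R] [Finite R]
    (i : Γ →* G) (c : Γ →* R) (ν : A → R → Measure G)
    (hequiv : ∀ a r γ γ', (ν a r).map (fun g => i γ * g * i γ') = ν a (c γ * r * c γ'))
    (C : ℝ≥0)
    (hupper : ∀ r, ∀ φ : C_c(G, ℝ), (∀ g, 0 ≤ φ g) → ∀ ε : ℝ, 0 < ε → ∀ᶠ a in l,
      Integrable φ (ν a r) ∧ ∫ g, φ g ∂(ν a r) ≤ C * ∫ g, φ g ∂μ + ε)
    (hM : ∀ γ : Γ, ∀ E : G → ℝ, Measurable E → (∃ C : ℝ, ∀ g, |E g| ≤ C) →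
      (∀ a b : Γ, c a = 1 → c b = 1 → ∀ g, E (i a * g * i b) = E g) →
      ∀ᵐ g ∂μ, E (i γ * g) = E g)
    (φ : C_c(G, ℝ)) (γ : Γ) (r : R) :
    Tendsto (fun a => ∫ g, φ g ∂(ν a (c γ * r)) - ∫ g, φ g ∂(ν a r)) l (𝓝 0) := by
  classical
  rw [tendsto_iff_ultrafilter]
  intro U hU
  -- boundedness
  have hb : ∀ r, ∀ φ : C_c(G, ℝ), ∃ M : ℝ, ∀ᶠ a in (U : Filter A),
      Integrable φ (ν a r) ∧ |∫ x, φ x ∂(ν a r)| ≤ M := by
    intro r φ
    refine ⟨C * ∫ g, absC φ g ∂μ + 1, ?_⟩
    filter_upwards [hU (hupper r (absC φ) (fun g => abs_nonneg _) 1 one_pos)] with a ha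
    have hint : Integrable φ (ν a r) := by
      refine ha.1.mono φ.continuous.aestronglyMeasurable (Eventually.of_forall fun x => ?_)
      rw [absC_apply, Real.norm_eq_abs, Real.norm_eq_abs, abs_abs]
    exact ⟨hint, (abs_integral_le_integral_abs).trans ha.2⟩
  choose m hreg hm using fun r => exists_limit_measure U (fun a => ν a r) (hb r)
  -- upper bound for the limit
  have hle : ∀ r, m r ≤ C • μ := by
    intro r
    have := hreg r
    refine le_smul_of_integral_le C fun φ hφ => ?_
    refine le_of_forall_pos_le_add fun ε hε => ?_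
    refine le_of_tendsto (hm r φ) ?_
    filter_upwards [hU (hupper r φ hφ ε hε)] with a ha
    exact ha.2
  -- equivariance of the limit
  have heq : ∀ r γ γ', (m r).map (LR (i γ) (i γ')) = m (c γ * r * c γ') := by
    intro r γ γ'
    have := hreg r
    have := hreg (c γ * r * c γ')
    have hregm : ((m r).map (LR (i γ) (i γ'))).Regular := Measure.Regular.map (LR (i γ) (i γ'))
    refine Measure.ext_of_integral_eq_on_compactlySupported fun ψ => ?_
    have hTm : Measurable (LR (i γ) (i γ')) := (LR (i γ) (i γ')).measurable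
    have h1 : ∀ κ : Measure G, ∫ x, ψ x ∂(κ.map (LR (i γ) (i γ'))) =
        ∫ x, compH ψ (LR (i γ) (i γ')) x ∂κ := fun κ =>
      integral_map hTm.aemeasurable (f := fun x => ψ x) ψ.continuous.aestronglyMeasurable
    rw [h1]
    refine tendsto_nhds_unique (hm r (compH ψ (LR (i γ) (i γ'))))
      ((hm (c γ * r * c γ') ψ).congr fun a => ?_)
    rw [← hequiv a r γ γ']
    exact h1 _
  -- all limits are equal
  have hall : m (c γ * r) = m r := by
    have hac : m r ≪ μ := by
      refine Measure.AbsolutelyContinuous.mk fun s _ h0 => ?_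
      have h1 := hle r s
      rw [Measure.smul_apply, h0, smul_zero] at h1
      exact le_antisymm h1 bot_le
    have hsf : SigmaFinite (m r) := by
      have := hreg r
      infer_instance
    obtain ⟨E0, hE0⟩ : ∃ E0, E0 = (m r).rnDeriv μ := ⟨_, rfl⟩
    have hE0m : Measurable E0 := by
      rw [hE0]
      exact Measure.measurable_rnDeriv _ _
    have hm1 : μ.withDensity E0 = m r := by
      rw [hE0]
      exact Measure.withDensity_rnDeriv_eq _ _ hac
    have hE0C : ∀ᵐ g ∂μ, E0 g ≤ C := by
      refine ae_le_of_forall_setLIntegral_le_of_sigmaFinite hE0m fun s hs _ => ?_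
      rw [← withDensity_apply _ hs, hm1]
      refine (hle r s).trans ?_
      rw [Measure.smul_apply, setLIntegral_const, ENNReal.smul_def, smul_eq_mul]
    -- a.e. invariance
    have hinv : ∀ a b : Γ, c a = 1 → c b = 1 → ∀ᵐ g ∂μ, E0 (i a * g * i b) = E0 g := by
      intro a b ha hb
      have h1 := heq r a⁻¹ b⁻¹
      rw [map_inv c, map_inv c, ha, hb, inv_one, one_mul, mul_one, ← hm1,
        map_withDensity_homeo μ _ (map_LR μ _ _) hE0m] at h1
      have h2 := (withDensity_eq_iff_of_sigmaFinite (hE0m.comp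
        (LR (i a⁻¹) (i b⁻¹)).symm.measurable).aemeasurable hE0m.aemeasurable).mp h1
      filter_upwards [h2] with g hg
      rw [Function.comp_apply, LR_symm_apply, map_inv, map_inv, inv_inv, inv_inv,
        ← mul_assoc] at hg
      exact hg
    -- exact invariance
    let E1 : G → ℝ≥0∞ := fun g => min (E0 g) C
    have hE1m : Measurable E1 := hE0m.min measurable_const
    let E2 : G → ℝ≥0∞ := fun g => ⨆ p : c.ker × c.ker, E1 (i p.1 * g * i p.2)
    have hE2m : Measurable E2 := by
      refine Measurable.iSup fun p => hE1m.comp ?_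
      exact (LR (i (p.1 : Γ)) (i (p.2 : Γ))).measurable
    have hE2C : ∀ g, E2 g ≤ C := fun g => iSup_le fun p => min_le_right _ _
    have hE2inv : ∀ a b : Γ, c a = 1 → c b = 1 → ∀ g, E2 (i a * g * i b) = E2 g := by
      intro a b ha hb g
      let e : (c.ker × c.ker) ≃ (c.ker × c.ker) :=
        (Equiv.mulRight (⟨a, ha⟩ : c.ker)).prodCongr (Equiv.mulLeft (⟨b, hb⟩ : c.ker))
      change (⨆ p : c.ker × c.ker, E1 (i p.1 * (i a * g * i b) * i p.2)) =
        ⨆ p : c.ker × c.ker, E1 (i p.1 * g * i p.2)
      rw [← e.iSup_comp (g := fun p : c.ker × c.ker => E1 (i p.1 * g * i p.2))]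
      refine iSup_congr fun p => ?_
      congr 1
      have h1 : ((e p).1 : Γ) = p.1 * a := rfl
      have h2 : ((e p).2 : Γ) = b * p.2 := rfl
      rw [h1, h2, map_mul, map_mul]
      group
    have hE2ae : ∀ᵐ g ∂μ, E2 g = E0 g := by
      have h1 : ∀ᵐ g ∂μ, ∀ p : c.ker × c.ker, E0 (i p.1 * g * i p.2) = E0 g := by
        rw [ae_all_iff]
        exact fun p => hinv p.1 p.2 p.1.2 p.2.2
      filter_upwards [h1, hE0C] with g hg hgC
      refine le_antisymm (iSup_le fun p => ?_) ?_
      · exact (min_le_left _ _).trans (hg p).le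
      · refine le_iSup_of_le (1 : c.ker × c.ker) ?_
        have h2 : E1 (i (1 : c.ker × c.ker).1 * g * i (1 : c.ker × c.ker).2) = E0 g := by
          change min (E0 (i (1 : Γ) * g * i (1 : Γ))) C = E0 g
          rw [map_one, one_mul, mul_one, min_eq_left hgC]
        exact h2.ge
    have h3 := hM γ⁻¹ (fun g => (E2 g).toReal) hE2m.ennreal_toReal
      ⟨C, fun g => by
        rw [abs_of_nonneg ENNReal.toReal_nonneg]
        exact ENNReal.toReal_le_coe_of_le_coe (hE2C g)⟩
      (fun a b ha hb g => by rw [hE2inv a b ha hb])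
    have h4 : ∀ᵐ g ∂μ, E0 (i γ⁻¹ * g) = E0 g := by
      have h5 : ∀ᵐ g ∂μ, E2 (i γ⁻¹ * g) = E0 (i γ⁻¹ * g) :=
        (measurePreserving_mul_left μ (i γ⁻¹)).quasiMeasurePreserving.ae hE2ae
      filter_upwards [h3, h5, hE2ae] with g hg h5 h6
      rw [← h5, ← h6]
      exact (ENNReal.toReal_eq_toReal_iff' ((hE2C _).trans_lt ENNReal.coe_lt_top).ne
        ((hE2C _).trans_lt ENNReal.coe_lt_top).ne).mp hg
    have h5 := heq r γ 1
    rw [map_one c, mul_one] at h5
    rw [← h5, ← hm1, map_withDensity_homeo μ _ (map_LR μ _ _) hE0m]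
    refine withDensity_congr_ae ?_
    filter_upwards [h4] with g hg
    rw [LR_symm_apply, ← hg, map_inv, map_one, inv_one, mul_one]
  have h1 := (hm (c γ * r) φ).sub (hm r φ)
  rw [hall, sub_self] at h1
  exact h1

/-- The **uniform distribution of colours**, abstract form. -/
theorem unif_colours (μ : Measure G) [μ.IsHaarMeasure] [μ.IsMulRightInvariant]
    {A Γ R : Type*} (l : Filter A) [Group Γ] [Countable Γ] [Group R] [Finite R]
    (i : Γ →* G) (c : Γ →* R) (hc : Function.Surjective c) (ν : A → R → Measure G)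
    (hequiv : ∀ a r γ γ', (ν a r).map (fun g => i γ * g * i γ') = ν a (c γ * r * c γ'))
    (C : ℝ≥0)
    (hupper : ∀ r, ∀ φ : C_c(G, ℝ), (∀ g, 0 ≤ φ g) → ∀ ε : ℝ, 0 < ε → ∀ᶠ a in l,
      Integrable φ (ν a r) ∧ ∫ g, φ g ∂(ν a r) ≤ C * ∫ g, φ g ∂μ + ε)
    (hM : ∀ γ : Γ, ∀ E : G → ℝ, Measurable E → (∃ C : ℝ, ∀ g, |E g| ≤ C) →
      (∀ a b : Γ, c a = 1 → c b = 1 → ∀ g, E (i a * g * i b) = E g) →
      ∀ᵐ g ∂μ, E (i γ * g) = E g)
    (φ : C_c(G, ℝ)) (r r' : R) :
    Tendsto (fun a => ∫ g, φ g ∂(ν a r) - ∫ g, φ g ∂(ν a r')) l (𝓝 0) := by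
  obtain ⟨γ, hγ⟩ := hc (r * r'⁻¹)
  have h := unif_colours_coset μ l i c ν hequiv C hupper hM φ γ r'
  rwa [hγ, inv_mul_cancel_right] at h

end group

end Vale.Agent.P011.H83
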