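import Vale.Agent.P011.H83.SymData
import Vale.Agent.P011.H380.Sep

/-!
# Small cells in the unitary group

The cells `B Q` of `unitary E` which are needed for the counting of points of bounded denominator:
they shrink to `1`, their Haar measure is at least `c / Q`, and the translates of `B Q` by the
points of denominator at most `Q` are disjoint.
-/

open MeasureTheory Filter Topology Set
open scoped ENNReal Pointwise

namespace Vale.Agent.P011.H83

section scale

variable {R E L : Type*} [CommRing R] [Ring E] [StarRing E] [TopologicalSpace E]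
  [Algebra R E] [AddCommGroup L] [Module R L] [TopologicalSpace L] (D : SymData R E L)

/-- The scalar `r` multiplies `lam` by `t`. -/
def Scales {V : Type*} [AddCommGroup V] [Module R V] [MeasurableSpace V] (lam : Measure V) (r : Rˣ)
    (t : ℝ≥0∞) : Prop :=
  ∀ s : Set V, MeasurableSet s → lam ((r : R) • s) = t * lam s

variable [TopologicalSpace R] [ContinuousConstSMul R L] [ContinuousConstSMul R E]
  [IsTopologicalRing E] [ContinuousStar E]
  [MeasurableSpace L] [BorelSpace L] [SecondCountableTopology L] [MeasurableSpace E] [BorelSpace E]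

omit [TopologicalSpace R] in
theorem smul_eq_preimage {V : Type*} [AddCommGroup V] [Module R V] (r : Rˣ) (s : Set V) :
    (r : R) • s = (fun x => ((r⁻¹ : Rˣ) : R) • x) ⁻¹' s := by
  ext x
  rw [mem_preimage, mem_smul_set]
  constructor
  · rintro ⟨y, hy, rfl⟩
    rw [smul_smul, Units.inv_mul, one_smul]
    exact hy
  · intro h
    exact ⟨_, h, by rw [smul_smul, Units.mul_inv, one_smul]⟩

omit [SecondCountableTopology L] [TopologicalSpace R] in
theorem Scales.map {lam : Measure L} {r : Rˣ} {t : ℝ≥0∞} (h : Scales lam r t) :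
    lam.map (fun x => ((r⁻¹ : Rˣ) : R) • x) = t • lam := by
  ext s hs
  rw [Measure.map_apply (measurable_const_smul _) hs, ← smul_eq_preimage, h s hs,
    Measure.smul_apply, smul_eq_mul]

omit [TopologicalSpace R] in
theorem Scales.haarE {lam : Measure L} [SFinite lam] {r : Rˣ} {t : ℝ≥0∞} (h : Scales lam r t) :
    Scales (R := R) (D.haarE lam) r (t ^ 2) := by
  intro s hs
  have hm : Measurable fun x : L => ((r⁻¹ : Rˣ) : R) • x := measurable_const_smul _
  have h1 : (lam.prod lam).map (Prod.map (fun x => ((r⁻¹ : Rˣ) : R) • x)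
      fun x => ((r⁻¹ : Rˣ) : R) • x) = t ^ 2 • lam.prod lam := by
    have hs' : SFinite (t • lam) := inferInstance
    rw [← Measure.map_prod_map _ _ hm hm, h.map, Measure.prod_smul_left,
      Measure.prod_smul_right, smul_smul, pow_two]
  have hsm : MeasurableSet ((r : R) • s) := by
    rw [smul_eq_preimage]
    exact measurable_const_smul _ hs
  rw [SymData.haarE, Measure.map_apply D.eqv.measurable hsm, Measure.map_apply D.eqv.measurable hs]
  have h2 : D.eqv ⁻¹' ((r : R) • s) = (Prod.map (fun x : L => ((r⁻¹ : Rˣ) : R) • x)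
      fun x : L => ((r⁻¹ : Rˣ) : R) • x) ⁻¹' (D.eqv ⁻¹' s) := by
    rw [smul_eq_preimage]
    ext p
    rw [mem_preimage, mem_preimage, mem_preimage, mem_preimage, ← D.eqv_smul]
    rfl
  rw [h2, ← Measure.map_apply (hm.prodMap hm) (D.eqv.measurable hs), h1, Measure.smul_apply,
    smul_eq_mul]

end scale

section cells

variable {R E L : Type*} [CommRing R] [TopologicalSpace R] [Ring E] [StarRing E]
  [TopologicalSpace E] [IsTopologicalRing E] [ContinuousStar E] [T2Space E]
  [LocallyCompactSpace E] [MeasurableSpace E] [BorelSpace E] [Algebra R E] [ContinuousSMul R E]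
  [AddCommGroup L] [Module R L] [TopologicalSpace L] [IsTopologicalAddGroup L] [T2Space L]
  [LocallyCompactSpace L] [SecondCountableTopology L] [MeasurableSpace L] [BorelSpace L]
  [ContinuousSMul R L] [LocallyCompactSpace (unitary E)] [MeasurableSpace (unitary E)]
  [BorelSpace (unitary E)]

/-- A compact set is moved into a neighbourhood of `0` by small scalars. -/
theorem eventually_smul_subset {R V A : Type*} [Zero R] [TopologicalSpace R] [Zero V]
    [TopologicalSpace V] [SMulWithZero R V] [ContinuousSMul R V] {l : Filter A} {r : A → R}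
    (hr : Tendsto r l (𝓝 0)) {M N : Set V} (hM : IsCompact M) (hN : N ∈ 𝓝 (0 : V)) :
    ∀ᶠ a in l, r a • M ⊆ N := by
  have h1 : ∀ᶠ x : R in 𝓝 0, ∀ m ∈ M, x • m ∈ N := by
    refine hM.eventually_forall_of_forall_eventually (x₀ := (0 : R))
      (P := fun x m => x • m ∈ N) fun m _ => ?_
    have hc : Continuous fun z : R × V => z.1 • z.2 := continuous_smul
    have h2 := hc.tendsto (0, m)
    simp only [zero_smul] at h2
    exact h2 hN
  filter_upwards [hr h1] with a ha
  rintro _ ⟨m, hm, rfl⟩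
  exact ha m hm

variable (D : SymData R E L)

include D in
/-- **Small cells.** -/
theorem exists_cells (lam : Measure L) [lam.IsAddHaarMeasure]
    (μ : Measure (unitary E)) [μ.IsHaarMeasure]
    {C1 : Set (unitary E)} (hC1 : IsCompact C1) (hC1μ : μ C1 ≠ 0)
    (J : E → E) {K1 : Set E} (hK1 : IsCompact K1) (hJK : ∀ g ∈ C1, J (g : E) ∈ K1)
    (hJ1 : ∀ g ∈ C1, ((g : E) - 1) * J g = 1) (hJ2 : ∀ g ∈ C1, J g * ((g : E) - 1) = 1)
    {W : Set E} (hW : IsCompact W) (hWμ : D.haarE lam W ≠ 0)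
    {P : Type*} (pos : P → unitary E) (den : P → ℝ) (hden : ∀ p, 0 ≤ den p)
    (hsp : ∀ p p', p ≠ p' → D.haarE lam W ≤ ENNReal.ofReal (den p * den p') *
      D.haarE lam ((fun y => (((pos p)⁻¹ * pos p' : unitary E) - 1 : E) * y) '' W))
    (hr : ∀ ε₀ : ℝ, 0 < ε₀ → ∃ c : ℝ, 0 < c ∧ ∃ r : ℝ → Rˣ,
      Tendsto (fun Q => (r Q : R)) atTop (𝓝 0) ∧
      ∀ᶠ Q in atTop, ∃ t : ℝ, Scales lam (r Q) (ENNReal.ofReal t) ∧ c / Q ≤ t ∧ t ≤ ε₀ / Q) :
    ∃ (B : ℝ → Set (unitary E)) (c : ℝ), 0 < c ∧ (∀ Q, MeasurableSet (B Q)) ∧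
      (∀ V ∈ 𝓝 (1 : unitary E), ∀ᶠ Q in atTop, B Q ⊆ V) ∧
      (∀ᶠ Q in atTop, c / Q ≤ μ.real (B Q)) ∧
      (∀ᶠ Q in atTop, ∀ p p', den p ≤ Q → den p' ≤ Q → p ≠ p' →
        ∀ b ∈ B Q, ∀ b' ∈ B Q, pos p * b ≠ pos p' * b') := by
  classical
  -- the chart
  let φ : unitary E → L := fun g => D.τ (J (g : E) * (D.w - star D.w) - star D.w)
  have hφ : ∀ g ∈ C1, D.σ (φ g) = J (g : E) * (D.w - star D.w) - star D.w := by
    intro g hg
    refine D.στ _ ?_
    have h1 : star (J (g : E)) * (star (g : E) - 1) = 1 := by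
      have := congrArg star (hJ1 g hg)
      rwa [star_mul, star_sub, star_one] at this
    have hgs : (g : E) * star (g : E) = 1 := Unitary.mul_star_self_of_mem g.2
    have h2 : star (J (g : E)) = -((g : E) * J g) := by
      have h3 : (star (g : E) - 1) * (-((g : E) * J g)) = 1 := by
        have h4 : star (g : E) * (g : E) = 1 := Unitary.star_mul_self_of_mem g.2
        calc (star (g : E) - 1) * (-((g : E) * J g)) =
            ((g : E) - star (g : E) * (g : E)) * J g := by noncomm_ring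
          _ = 1 := by rw [h4, hJ1 g hg]
      calc star (J (g : E)) = star (J (g : E)) * ((star (g : E) - 1) * (-((g : E) * J g))) := by
            rw [h3, mul_one]
        _ = (star (J (g : E)) * (star (g : E) - 1)) * (-((g : E) * J g)) := by rw [mul_assoc]
        _ = -((g : E) * J g) := by rw [h1, one_mul]
    have h5 : (g : E) * J g = 1 + J g := by
      have := hJ1 g hg
      rw [sub_mul, one_mul] at this
      rw [← this]
      noncomm_ring
    rw [star_sub, star_mul, star_sub, star_star, h2, h5]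
    have h6 := D.comm (J (g : E))
    have h7 := D.star_w_comm (J (g : E))
    have h8 : (star D.w - D.w) * -(1 + J (g : E)) =
        D.w - star D.w + (D.w * J (g : E) - star D.w * J (g : E)) := by noncomm_ring
    rw [h8, h6, h7]
    noncomm_ring
  -- boxes in `L`
  obtain ⟨b1, hb1c, hb1n⟩ := exists_compact_mem_nhds (0 : L)
  let β : Set L := (fun q : L × L => q.1 - q.2) '' (b1 ×ˢ b1)
  have hβ : IsCompact β := (hb1c.prod hb1c).image (by fun_prop)
  -- the compact set of directions
  let M0 : Set E := (fun q : (unitary E × L) × unitary E =>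
    -(star (q.1.1 : E) * (((q.1.1 : E) - 1) * (D.σ q.1.2 * D.wi) * ((q.2 : E) - 1)))) ''
      ((C1 ×ˢ β) ×ˢ C1)
  have hM0 : IsCompact M0 := by
    have := D.hσ
    refine ((hC1.prod hβ).prod hC1).image ?_
    fun_prop
  have hdir : ∀ (r : R), ∀ g ∈ C1, ∀ g' ∈ C1, (∃ e ∈ r • b1, ∃ e' ∈ r • b1, φ g + e = φ g' + e') →
      ((g⁻¹ * g' : unitary E) : E) - 1 ∈ r • M0 := by
    rintro r g hg g' hg' ⟨_, ⟨e, he, rfl⟩, _, ⟨e', he', rfl⟩, hee⟩
    have h1 : φ g' - φ g = r • (e - e') := by
      rw [smul_sub]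
      have : φ g' = φ g + r • e - r • e' := by rw [hee]; abel
      rw [this]
      abel
    have h2 : (J (g' : E) - J (g : E)) * (D.w - star D.w) = r • D.σ (e - e') := by
      rw [← map_smul, ← h1, map_sub, hφ g hg, hφ g' hg']
      noncomm_ring
    have h3 : J (g' : E) - J (g : E) = r • (D.σ (e - e') * D.wi) := by
      rw [← smul_mul_assoc, ← h2, mul_assoc, D.mul_wi, mul_one]
    have h4 : (g : E) - g' = ((g : E) - 1) * (J (g' : E) - J (g : E)) * ((g' : E) - 1) := by
      calc (g : E) - g' = ((g : E) - 1) * (J (g' : E) * ((g' : E) - 1)) -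
            (((g : E) - 1) * J (g : E)) * ((g' : E) - 1) := by
            rw [hJ2 g' hg', hJ1 g hg]
            noncomm_ring
        _ = _ := by noncomm_ring
    have h5 : ((g⁻¹ * g' : unitary E) : E) - 1 = -(star (g : E) * ((g : E) - g')) := by
      have h6 : star (g : E) * (g : E) = 1 := Unitary.star_mul_self_of_mem g.2
      have h7 : ((g⁻¹ * g' : unitary E) : E) = star (g : E) * g' := rfl
      rw [h7, mul_sub, h6]
      noncomm_ring
    refine ⟨_, ⟨((g, e - e'), g'), ⟨⟨hg, ⟨(e, e'), ⟨he, he'⟩, rfl⟩⟩, hg'⟩, rfl⟩, ?_⟩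
    change r • (-(star (g : E) * (((g : E) - 1) * (D.σ (e - e') * D.wi) * ((g' : E) - 1)))) = _
    rw [h5, h4, h3, mul_smul_comm, smul_mul_assoc, mul_smul_comm, smul_neg]
  -- the compact neighbourhood of `0` in `E`
  obtain ⟨K0, hK0c, hK0n⟩ := exists_compact_mem_nhds (0 : E)
  let K3 : Set E := (fun q : (E × E) × E => (q.1.1 - q.1.2) * star (1 + q.2)) ''
    ((M0 ×ˢ M0) ×ˢ K0)
  have hK3 : IsCompact K3 := ((hM0.prod hM0).prod hK0c).image (by fun_prop)
  have hK3W : IsCompact (K3 * W) := hK3.mul hW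
  have hhaar : (D.haarE lam).IsAddHaarMeasure :=
    Measure.isAddHaarMeasure_map (lam.prod lam)
      (AddMonoidHom.mk' D.eqv D.eqv_add : L × L →+ E) D.eqv.continuous D.eqv.surjective
      D.eqv.isClosedEmbedding.tendsto_cocompact
  have hK3Wfin : D.haarE lam (K3 * W) ≠ ⊤ := hK3W.measure_lt_top.ne
  -- the constant
  obtain ⟨ε₀, hε₀, hε₀'⟩ : ∃ ε₀ : ℝ, 0 < ε₀ ∧
      ENNReal.ofReal (ε₀ ^ 2) * D.haarE lam (K3 * W) < D.haarE lam W := by
    obtain ⟨m, hm0, hm1, hm2⟩ := ENNReal.lt_iff_exists_real_btwn.mp (pos_iff_ne_zero.mpr hWμ)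
    have hm : 0 < m := by
      by_contra h
      rw [ENNReal.ofReal_of_nonpos (not_lt.mp h)] at hm1
      exact lt_irrefl _ hm1
    set C := (D.haarE lam (K3 * W)).toReal with hC
    have hC0 : 0 ≤ C := ENNReal.toReal_nonneg
    refine ⟨Real.sqrt (m / (C + 1)), Real.sqrt_pos.mpr (by positivity), ?_⟩
    rw [Real.sq_sqrt (by positivity), ← ENNReal.ofReal_toReal hK3Wfin,
      ← ENNReal.ofReal_mul (by positivity)]
    refine (ENNReal.ofReal_le_ofReal ?_).trans_lt hm2
    rw [← hC, div_mul_eq_mul_div, div_le_iff₀ (by positivity)]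
    nlinarith
  obtain ⟨c, hc, r, hr0, hrt⟩ := hr ε₀ hε₀
  -- the target of the chart
  let D0 : Set L := (fun q : E × L => D.τ (q.1 * (D.w - star D.w) - star D.w) + q.2) ''
    (K1 ×ˢ b1)
  have hD0 : IsCompact D0 := by
    have := D.hτ
    exact (hK1.prod hb1c).image (by fun_prop)
  obtain ⟨V0, hV0c, hV0n⟩ := exists_compact_mem_nhds (1 : unitary E)
  let B : ℝ → Set (unitary E) := fun Q => {g | (g : E) - 1 ∈ (r Q : R) • M0}
  have hBcl : ∀ Q, IsClosed (B Q) := fun Q => by
    have h1 : IsCompact ((r Q : R) • M0) := hM0.image (continuous_const_smul _)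
    exact h1.isClosed.preimage (by fun_prop)
  have hBsmall : ∀ V ∈ 𝓝 (1 : unitary E), ∀ᶠ Q in atTop, B Q ⊆ V := by
    intro V hV
    obtain ⟨V', hV', hV'V⟩ := (mem_nhds_subtype _ _ _).mp hV
    have hN : (fun x : E => x + 1) ⁻¹' V' ∈ 𝓝 (0 : E) := by
      have hc : Continuous fun x : E => x + 1 := by fun_prop
      have h2 := hc.tendsto 0
      rw [zero_add] at h2
      exact h2 hV'
    filter_upwards [eventually_smul_subset hr0 hM0 hN] with Q hQ g hg
    refine hV'V ?_
    have h3 := hQ hg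
    rw [mem_preimage, sub_add_cancel] at h3
    exact h3
  have hlamb1 : lam b1 ≠ 0 := (Measure.measure_pos_of_mem_nhds lam hb1n).ne'
  have hlamb1' : lam b1 ≠ ⊤ := hb1c.measure_lt_top.ne
  have hC1' : μ C1 ≠ ⊤ := hC1.measure_lt_top.ne
  have hD0' : lam D0 ≠ ⊤ := hD0.measure_lt_top.ne
  have hb1m : MeasurableSet b1 := hb1c.measurableSet
  set a1 := (μ C1).toReal with ha1
  set a2 := (lam b1).toReal with ha2
  set a3 := (lam D0).toReal with ha3
  have ha1' : 0 < a1 := ENNReal.toReal_pos hC1μ hC1'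
  have ha2' : 0 < a2 := ENNReal.toReal_pos hlamb1 hlamb1'
  have ha3' : 0 ≤ a3 := ENNReal.toReal_nonneg
  refine ⟨B, c * (a1 * a2) / (a3 + 1), by positivity, fun Q => (hBcl Q).measurableSet,
    hBsmall, ?_, ?_⟩
  · -- lower bound for the measure
    filter_upwards [hrt, hBsmall V0 hV0n, eventually_smul_subset hr0 hb1c hb1n,
      eventually_gt_atTop 0] with Q hQt hQV hQb hQ0
    obtain ⟨t, hsc, hct, -⟩ := hQt
    have ht0 : 0 < t := lt_of_lt_of_le (by positivity) hct
    have hBfin : μ (B Q) ≠ ⊤ := ne_top_of_le_ne_top hV0c.measure_lt_top.ne (measure_mono hQV)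
    have hEm : MeasurableSet ((r Q : R) • b1) :=
      (hb1c.image (continuous_const_smul _)).measurableSet
    have hE : lam ((r Q : R) • b1) = ENNReal.ofReal t * lam b1 := hsc b1 hb1m
    have hE0 : lam ((r Q : R) • b1) ≠ 0 := by
      rw [hE]
      exact mul_ne_zero (ENNReal.ofReal_pos.mpr ht0).ne' hlamb1
    have h1 := H380.Theta.le_measure_cell (μ := μ) (lam := lam) (C1 := C1) (B := B Q) (φ := φ)
      (D := D0) hEm hD0' hE0
      (fun g hg e he => ⟨(J (g : E), e), ⟨hJK g hg, hQb he⟩, rfl⟩)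
      (fun g hg g' hg' h => hdir (r Q) g hg g' hg' h)
    rw [hE] at h1
    have h2 : a1 * (t * a2) ≤ a3 * μ.real (B Q) := by
      have h3 := ENNReal.toReal_mono (ENNReal.mul_ne_top hD0' hBfin) h1
      rwa [ENNReal.toReal_mul, ENNReal.toReal_mul, ENNReal.toReal_mul,
        ENNReal.toReal_ofReal ht0.le] at h3
    have h4 : a1 * (t * a2) ≤ (a3 + 1) * μ.real (B Q) := by
      have : 0 ≤ μ.real (B Q) := measureReal_nonneg
      nlinarith
    rw [div_div, div_le_iff₀ (by positivity)]
    have h5 : c ≤ t * Q := by rwa [div_le_iff₀ hQ0] at hct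
    calc c * (a1 * a2) ≤ t * Q * (a1 * a2) := by gcongr
      _ = a1 * (t * a2) * Q := by ring
      _ ≤ (a3 + 1) * μ.real (B Q) * Q := by gcongr
      _ = μ.real (B Q) * ((a3 + 1) * Q) := by ring
  · -- separation
    filter_upwards [hrt, eventually_smul_subset hr0 hM0 hK0n, eventually_gt_atTop 0]
      with Q hQt hQK hQ0 p p' hp hp' hne b hb b' hb' heq
    obtain ⟨t, hsc, hct, htε⟩ := hQt
    have ht0 : 0 < t := lt_of_lt_of_le (by positivity) hct
    have h1 : (pos p)⁻¹ * pos p' = b * b'⁻¹ := by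
      rw [inv_mul_eq_iff_eq_mul, ← mul_assoc, eq_mul_inv_iff_mul_eq]
      exact heq.symm
    obtain ⟨m, hm, hmb⟩ := hb
    obtain ⟨m', hm', hmb'⟩ := hb'
    have hx : (((pos p)⁻¹ * pos p' : unitary E) : E) - 1 ∈ (r Q : R) • K3 := by
      have h2 : ((b * b'⁻¹ : unitary E) : E) - 1 = ((b : E) - b') * star (b' : E) := by
        have h3 : (b' : E) * star (b' : E) = 1 := Unitary.mul_star_self_of_mem b'.2
        have h4 : ((b * b'⁻¹ : unitary E) : E) = b * star (b' : E) := rfl
        rw [sub_mul, h3, h4]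
      have h5 : (b : E) - b' = (r Q : R) • (m - m') := by
        have h6 : (b : E) = 1 + (r Q : R) • m := by
          change (r Q : R) • m = (b : E) - 1 at hmb
          rw [hmb]; abel
        have h7 : (b' : E) = 1 + (r Q : R) • m' := by
          change (r Q : R) • m' = (b' : E) - 1 at hmb'
          rw [hmb']; abel
        rw [h6, h7, smul_sub]
        abel
      refine ⟨(m - m') * star (1 + (r Q : R) • m'), ⟨((m, m'), (r Q : R) • m'),
        ⟨⟨hm, hm'⟩, hQK ⟨m', hm', rfl⟩⟩, rfl⟩, ?_⟩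
      change (r Q : R) • ((m - m') * star (1 + (r Q : R) • m')) = _
      have h8 : 1 + (r Q : R) • m' = (b' : E) := by
        change (r Q : R) • m' = (b' : E) - 1 at hmb'
        rw [hmb']; abel
      rw [h1, h2, h5, h8, smul_mul_assoc]
    have h2 : (fun y => ((((pos p)⁻¹ * pos p' : unitary E) : E) - 1) * y) '' W ⊆
        (r Q : R) • (K3 * W) := by
      rintro _ ⟨y, hy, rfl⟩
      obtain ⟨z, hz, hzx⟩ := hx
      refine ⟨z * y, Set.mul_mem_mul hz hy, ?_⟩
      change (r Q : R) • (z * y) = _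
      change (r Q : R) • z = _ at hzx
      simp only
      rw [← hzx, smul_mul_assoc]
    have h3 : D.haarE lam ((r Q : R) • (K3 * W)) = ENNReal.ofReal t ^ 2 * D.haarE lam (K3 * W) :=
      hsc.haarE D _ hK3W.measurableSet
    have h4 : D.haarE lam W ≤ ENNReal.ofReal (ε₀ ^ 2) * D.haarE lam (K3 * W) := by
      calc D.haarE lam W ≤ ENNReal.ofReal (den p * den p') *
            D.haarE lam ((fun y => ((((pos p)⁻¹ * pos p' : unitary E) : E) - 1) * y) '' W) :=
            hsp p p' hne
        _ ≤ ENNReal.ofReal (Q * Q) * (ENNReal.ofReal t ^ 2 * D.haarE lam (K3 * W)) := by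
            rw [← h3]
            gcongr
            exact hden p'
        _ = ENNReal.ofReal ((Q * t) ^ 2) * D.haarE lam (K3 * W) := by
            rw [← mul_assoc, ← ENNReal.ofReal_pow ht0.le, ← ENNReal.ofReal_mul (by positivity)]
            congr 2
            ring
        _ ≤ ENNReal.ofReal (ε₀ ^ 2) * D.haarE lam (K3 * W) := by
            have h5 : Q * t ≤ ε₀ := by
              rw [le_div_iff₀ hQ0] at htε
              linarith
            gcongr
    exact absurd h4 (not_le.mpr hε₀')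

omit [Algebra R E] [ContinuousSMul R E] [T2Space E] [LocallyCompactSpace E]
  [MeasurableSpace E] [BorelSpace E] in
/-- The set `C1` on which the chart of `exists_cells` is defined. -/
theorem exists_chart (μ : Measure (unitary E)) [μ.IsHaarMeasure] (g₀ : unitary E)
    (hg₀ : IsUnit ((g₀ : E) - 1)) (hopen : IsOpen {x : E | IsUnit x})
    (hcont : ContinuousOn Ring.inverse {x : E | IsUnit x}) :
    ∃ (C1 : Set (unitary E)) (K1 : Set E), IsCompact C1 ∧ μ C1 ≠ 0 ∧ IsCompact K1 ∧
      ∀ g ∈ C1, Ring.inverse ((g : E) - 1) ∈ K1 ∧ ((g : E) - 1) * Ring.inverse ((g : E) - 1) = 1 ∧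
        Ring.inverse ((g : E) - 1) * ((g : E) - 1) = 1 := by
  have hc : Continuous fun g : unitary E => (g : E) - 1 := by fun_prop
  have hO : IsOpen ((fun g : unitary E => (g : E) - 1) ⁻¹' {x : E | IsUnit x}) :=
    hopen.preimage hc
  obtain ⟨C1, hC1, hC1s, hC1c⟩ := exists_compact_subset hO hg₀
  refine ⟨C1, (fun g : unitary E => Ring.inverse ((g : E) - 1)) '' C1, hC1, ?_, ?_, ?_⟩
  · have hn : C1 ∈ 𝓝 g₀ := mem_interior_iff_mem_nhds.mp hC1s
    exact (Measure.measure_pos_of_mem_nhds μ hn).ne'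
  · refine hC1.image_of_continuousOn ?_
    exact hcont.comp hc.continuousOn fun g hg => hC1c hg
  · intro g hg
    have hu : IsUnit ((g : E) - 1) := hC1c hg
    exact ⟨⟨g, hg, rfl⟩, Ring.mul_inverse_cancel _ hu, Ring.inverse_mul_cancel _ hu⟩

end cells

end Vale.Agent.P011.H83
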