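import Vale.Agent.P011.H321.AvoidA

/-!
# The parameter of the pencil (module (T) of the doubling 3 -> 6)

Over a Dedekind domain `R` with fraction field `K`: a parameter `T`, integral outside `Sg`, close
to `0` at `S \ Sg`, huge at `Sg`, such that at every other place the three values `E_i(T)` are
integral, `(E_1^2 - 3 E_2, E_1 E_2 - 9 E_3)` do not both vanish mod `v`, and `(E_2, E_3)` do not
both vanish mod `v`.
-/

namespace Vale.Agent.P011.H83.ExT

open IsDedekindDomain HeightOneSpectrum Polynomial WithZero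
open Vale.Agent.P011.H321.Avoid

section Val

variable {K : Type*} [Field K] (w : Valuation K ℤᵐ⁰)

theorem eval_le {f : K[X]} {c : ℤᵐ⁰} (hc : ∀ i, w (f.coeff i) ≤ c) {T : K} (hT : w T ≤ 1) :
    w (f.eval T) ≤ c := by
  rw [eval_eq_sum_range]
  refine Valuation.map_sum_le _ fun i _ => ?_
  rw [map_mul, map_pow]
  calc w (f.coeff i) * w T ^ i ≤ w (f.coeff i) * 1 := mul_le_mul_right (pow_le_one' hT i) _
    _ ≤ c := by rw [mul_one]; exact hc i

/-- The coefficients of finitely many polynomials are bounded by one nonzero constant. -/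
theorem exists_bound (f : K[X]) : ∃ c : ℤᵐ⁰, 1 ≤ c ∧ ∀ i, w (f.coeff i) ≤ c := by
  refine ⟨max 1 ((Finset.range (f.natDegree + 1)).sup fun i => w (f.coeff i)), le_max_left _ _,
    fun i => ?_⟩
  by_cases hi : i ∈ Finset.range (f.natDegree + 1)
  · exact le_max_of_le_right (Finset.le_sup (f := fun i => w (f.coeff i)) hi)
  · rw [coeff_eq_zero_of_natDegree_lt (by simpa using hi), map_zero]
    exact zero_le

/-- Polynomials are continuous at `0`. -/
theorem eval_close0 (f : K[X]) : ∃ δ : ℤᵐ⁰, δ ≠ 0 ∧ ∀ T : K, w T < δ →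
    w (f.eval T - f.eval 0) < 1 := by
  obtain ⟨c, hc1, hc⟩ := exists_bound w f.divX
  have hc0 : 0 < c := lt_of_lt_of_le zero_lt_one hc1
  refine ⟨c⁻¹, inv_ne_zero hc0.ne', fun T hT => ?_⟩
  have hT1 : w T ≤ 1 := hT.le.trans (inv_le_one_of_one_le₀ hc1)
  have e : f.eval T - f.eval 0 = T * f.divX.eval T := by
    have h := congrArg (eval T) (divX_mul_X_add f)
    simp only [eval_add, eval_mul, eval_X, eval_C] at h
    rw [← h, ← coeff_zero_eq_eval_zero]
    ring
  rw [e, map_mul]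
  calc w T * w (f.divX.eval T) ≤ w T * c := mul_le_mul_right (eval_le w hc hT1) _
    _ < c⁻¹ * c := mul_lt_mul_of_pos_right hT hc0
    _ = 1 := inv_mul_cancel₀ hc0.ne'

end Val

variable {R K : Type*} [CommRing R] [IsDedekindDomain R] [Field K] [Algebra R K]
  [IsFractionRing R K]

/-- The coefficients of a polynomial are integral outside a finite set. -/
theorem bad_finite1 (f : K[X]) :
    {v : HeightOneSpectrum R | ∃ m, 1 < v.valuation K (coeff f m)}.Finite := by
  have h : {v : HeightOneSpectrum R | ∃ m, 1 < v.valuation K (coeff f m)} ⊆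
      ⋃ m ∈ f.support, {v : HeightOneSpectrum R | v.valuation K (coeff f m) ≠ 1} := by
    rintro v ⟨m, hm⟩
    simp only [Set.mem_iUnion]
    refine ⟨m, ?_, hm.ne'⟩
    rw [mem_support_iff]
    intro h0
    rw [h0, map_zero] at hm
    exact absurd hm (by simp)
  refine Set.Finite.subset ?_ h
  refine Set.Finite.biUnion (Finset.finite_toSet _) fun m hm => ?_
  exact hos_finite (mem_support_iff.mp hm)

variable (K) in
/-- There are elements of large valuation. -/
theorem exists_big (v : HeightOneSpectrum R) (t : ℤᵐ⁰) : ∃ y : K, t < v.valuation K y := by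
  obtain ⟨π, hπ⟩ := v.valuation_exists_uniformizer K
  by_cases ht : t = 0
  · exact ⟨1, by rw [ht, map_one]; exact zero_lt_one⟩
  · refine ⟨π⁻¹ ^ ((log t).toNat + 1), ?_⟩
    rw [map_pow, map_inv₀, hπ, ← exp_neg, ← exp_nsmul, ← exp_log ht, exp_lt_exp, log_exp]
    have := Int.self_le_toNat (log t)
    simp only [nsmul_eq_mul, neg_neg, mul_one]
    push_cast
    omega

/-- **A parameter with prescribed size**: nonzero, small at `S \ Sg`, large at `Sg`, integral
at all other places. -/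
theorem exists_size {S Sg : Set (HeightOneSpectrum R)} (hS : S.Finite) (hSg : Sg.Finite)
    (τ τ' : HeightOneSpectrum R → ℤᵐ⁰) (hτ : ∀ v, τ v ≠ 0) :
    ∃ T : K, T ≠ 0 ∧ (∀ v ∈ S \ Sg, v.valuation K T < τ v) ∧
      (∀ v ∈ Sg, τ' v < v.valuation K T) ∧ ∀ v ∉ Sg, v.valuation K T ≤ 1 := by
  classical
  by_cases hE : Sg = ∅
  · obtain ⟨c, hc0, hc⟩ := exists_small K hS.toFinset τ (fun v _ => hτ v)
    refine ⟨algebraMap R K c, ?_, fun v hv => hc v (hS.mem_toFinset.2 hv.1), ?_,
      fun v _ => valuation_le_one v c⟩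
    · simpa using hc0
    · intro v hv
      rw [hE] at hv
      exact absurd hv (Set.notMem_empty _)
  · obtain ⟨v0, hv0⟩ := Set.nonempty_iff_ne_empty.2 hE
    choose y hy using fun v : HeightOneSpectrum R => exists_big K v (τ' v)
    let x : HeightOneSpectrum R → K := fun v => if v ∈ Sg then y v else 0
    let g : HeightOneSpectrum R → ℤᵐ⁰ := fun v =>
      if v ∈ Sg then v.valuation K (y v) else min 1 (τ v)
    obtain ⟨T, hT1, hT2⟩ := approx (hS.toFinset ∪ hSg.toFinset) x g (by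
      intro v _
      by_cases h : v ∈ Sg
      · simp only [g, if_pos h]
        exact (lt_of_le_of_lt zero_le (hy v)).ne'
      · simp only [g, if_neg h]
        exact (lt_min zero_lt_one (zero_lt_iff.2 (hτ v))).ne')
    have hbig : ∀ v ∈ Sg, v.valuation K T = v.valuation K (y v) := by
      intro v hv
      have h1 := hT1 v (Finset.mem_union_right _ (hSg.mem_toFinset.2 hv))
      simp only [x, g, if_pos hv] at h1
      have e : T = (T - y v) + y v := by ring
      rw [e]
      exact (v.valuation K).map_add_eq_of_lt_right h1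
    have hsm : ∀ v ∈ S \ Sg, v.valuation K T < min 1 (τ v) := by
      intro v hv
      have h1 := hT1 v (Finset.mem_union_left _ (hS.mem_toFinset.2 hv.1))
      simpa only [x, g, if_neg hv.2, sub_zero] using h1
    refine ⟨T, ?_, fun v hv => lt_of_lt_of_le (hsm v hv) (min_le_right _ _), ?_, ?_⟩
    · intro h0
      have h1 := hbig v0 hv0
      have h2 := hy v0
      rw [← h1, h0, map_zero] at h2
      exact absurd h2 (by simp)
    · intro v hv
      rw [hbig v hv]
      exact hy v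
    · intro v hv
      by_cases h : v ∈ S
      · exact (lt_of_lt_of_le (hsm v ⟨h, hv⟩) (min_le_left _ _)).le
      · refine hT2 v ?_
        simp only [Finset.mem_union, Set.Finite.mem_toFinset]
        tauto

/-- Two values with a Bezout identity with integral coefficients do not vanish together. -/
theorem not_both {w : Valuation K ℤᵐ⁰} {a b p r : K} (ha : w a ≤ 1) (hb : w b ≤ 1)
    (h : a * p + b * r = 1) : ¬ (w p < 1 ∧ w r < 1) := by
  rintro ⟨h1, h2⟩
  have h3 : w (a * p + b * r) < 1 := by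
    refine w.map_add_lt ?_ ?_
    · rw [map_mul]
      calc w a * w p ≤ 1 * w p := mul_le_mul_left ha _
        _ < 1 := by rw [one_mul]; exact h1
    · rw [map_mul]
      calc w b * w r ≤ 1 * w r := mul_le_mul_left hb _
        _ < 1 := by rw [one_mul]; exact h2
  rw [h, map_one] at h3
  exact lt_irrefl _ h3

/-- `P = E_1^2 - 3 E_2` is stable mod `v`. -/
theorem P_stable {w : Valuation K ℤᵐ⁰} {a b a' b' : K} (h3 : w 3 ≤ 1) (ha : w a ≤ 1)
    (ha' : w a' ≤ 1) (h1 : w (a' - a) < 1) (h2 : w (b' - b) < 1) :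
    w ((a' ^ 2 - 3 * b') - (a ^ 2 - 3 * b)) < 1 := by
  have e : (a' ^ 2 - 3 * b') - (a ^ 2 - 3 * b) = (a' - a) * (a' + a) - 3 * (b' - b) := by ring
  rw [e]
  refine w.map_sub_lt ?_ ?_
  · rw [map_mul]
    calc w (a' - a) * w (a' + a) ≤ w (a' - a) * 1 := mul_le_mul_right (w.map_add_le ha' ha) _
      _ < 1 := by rw [mul_one]; exact h1
  · rw [map_mul]
    calc w 3 * w (b' - b) ≤ 1 * w (b' - b) := mul_le_mul_left h3 _
      _ < 1 := by rw [one_mul]; exact h2

/-- `R = E_1 E_2 - 9 E_3` is stable mod `v`. -/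
theorem R_stable {w : Valuation K ℤᵐ⁰} {a b c a' b' c' : K} (h9 : w 9 ≤ 1) (hb : w b ≤ 1)
    (ha' : w a' ≤ 1) (h1 : w (a' - a) < 1) (h2 : w (b' - b) < 1) (h3 : w (c' - c) < 1) :
    w ((a' * b' - 9 * c') - (a * b - 9 * c)) < 1 := by
  have e : (a' * b' - 9 * c') - (a * b - 9 * c) =
      (a' * (b' - b) + (a' - a) * b) - 9 * (c' - c) := by ring
  rw [e]
  refine w.map_sub_lt (w.map_add_lt ?_ ?_) ?_
  · rw [map_mul]
    calc w a' * w (b' - b) ≤ 1 * w (b' - b) := mul_le_mul_left ha' _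
      _ < 1 := by rw [one_mul]; exact h2
  · rw [map_mul]
    calc w (a' - a) * w b ≤ w (a' - a) * 1 := mul_le_mul_right hb _
      _ < 1 := by rw [mul_one]; exact h1
  · rw [map_mul]
    calc w 9 * w (c' - c) ≤ 1 * w (c' - c) := mul_le_mul_left h9 _
      _ < 1 := by rw [one_mul]; exact h3

theorem val_natCast_le (v : HeightOneSpectrum R) (n : ℕ) : v.valuation K (n : K) ≤ 1 := by
  rw [← map_natCast (algebraMap R K) n]
  exact valuation_le_one v (n : R)

/-- **(T)** of the doubling `3 -> 6`. -/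
theorem exists_T {E1 E2 E3 : K[X]} (h12 : IsCoprime (E1 ^ 2 - 3 * E2) (E1 * E2 - 9 * E3))
    (h23 : IsCoprime E2 E3) {S Sg : Set (HeightOneSpectrum R)} (hS : S.Finite) (hSg : Sg.Finite)
    (hi1 : ∀ v ∉ S, v.valuation K (E1.eval 0) ≤ 1) (hi2 : ∀ v ∉ S, v.valuation K (E2.eval 0) ≤ 1)
    (hi3 : ∀ v ∉ S, v.valuation K (E3.eval 0) = 1)
    (h0 : ∀ v ∉ S, ¬ (v.valuation K (E1.eval 0 ^ 2 - 3 * E2.eval 0) < 1 ∧
      v.valuation K (E1.eval 0 * E2.eval 0 - 9 * E3.eval 0) < 1))
    (τ τ' : HeightOneSpectrum R → ℤᵐ⁰) (hτ : ∀ v, τ v ≠ 0) :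
    ∃ T : K, T ≠ 0 ∧ (∀ v ∈ S \ Sg, v.valuation K T < τ v) ∧
      (∀ v ∈ Sg, τ' v < v.valuation K T) ∧
      ∀ v ∉ S ∪ Sg, v.valuation K T ≤ 1 ∧ v.valuation K (E1.eval T) ≤ 1 ∧
        v.valuation K (E2.eval T) ≤ 1 ∧ v.valuation K (E3.eval T) ≤ 1 ∧
        ¬ (v.valuation K (E1.eval T ^ 2 - 3 * E2.eval T) < 1 ∧
          v.valuation K (E1.eval T * E2.eval T - 9 * E3.eval T) < 1) ∧
        ¬ (v.valuation K (E2.eval T) < 1 ∧ v.valuation K (E3.eval T) < 1) := by
  classical
  obtain ⟨A, B, hAB⟩ := h12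
  obtain ⟨C, D, hCD⟩ := h23
  -- the bad set
  let Bd : Set (HeightOneSpectrum R) :=
    {v | ∃ m, 1 < v.valuation K (coeff A m)} ∪ {v | ∃ m, 1 < v.valuation K (coeff B m)} ∪
    {v | ∃ m, 1 < v.valuation K (coeff C m)} ∪ {v | ∃ m, 1 < v.valuation K (coeff D m)} ∪
    {v | ∃ m, 1 < v.valuation K (coeff E1 m)} ∪ {v | ∃ m, 1 < v.valuation K (coeff E2 m)} ∪
    {v | ∃ m, 1 < v.valuation K (coeff E3 m)}
  have hBd : Bd.Finite := ((((((bad_finite1 A).union (bad_finite1 B)).union
    (bad_finite1 C)).union (bad_finite1 D)).union (bad_finite1 E1)).union (bad_finite1 E2)).union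
    (bad_finite1 E3)
  choose d1 hd1 hd1' using fun v : HeightOneSpectrum R => eval_close0 (v.valuation K) E1
  choose d2 hd2 hd2' using fun v : HeightOneSpectrum R => eval_close0 (v.valuation K) E2
  choose d3 hd3 hd3' using fun v : HeightOneSpectrum R => eval_close0 (v.valuation K) E3
  let σ : HeightOneSpectrum R → ℤᵐ⁰ := fun v => min (min (τ v) (d1 v)) (min (d2 v) (d3 v))
  have hσ : ∀ v, σ v ≠ 0 := fun v => (lt_min (lt_min (zero_lt_iff.2 (hτ v))
    (zero_lt_iff.2 (hd1 v))) (lt_min (zero_lt_iff.2 (hd2 v)) (zero_lt_iff.2 (hd3 v)))).ne'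
  obtain ⟨T, hT0, hT1, hT2, hT3⟩ := exists_size (K := K) (hS.union hBd) hSg σ τ' hσ
  refine ⟨T, hT0, fun v hv => lt_of_lt_of_le (hT1 v ⟨Or.inl hv.1, hv.2⟩)
    ((min_le_left _ _).trans (min_le_left _ _)), hT2, fun v hv => ?_⟩
  have hvS : v ∉ S := fun h => hv (Or.inl h)
  have hvg : v ∉ Sg := fun h => hv (Or.inr h)
  have hTv : v.valuation K T ≤ 1 := hT3 v hvg
  by_cases hb : v ∈ Bd
  · have hsm := hT1 v ⟨Or.inr hb, hvg⟩
    have g1 := hd1' v T (lt_of_lt_of_le hsm ((min_le_left _ _).trans (min_le_right _ _)))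
    have g2 := hd2' v T (lt_of_lt_of_le hsm ((min_le_right _ _).trans (min_le_left _ _)))
    have g3 := hd3' v T (lt_of_lt_of_le hsm ((min_le_right _ _).trans (min_le_right _ _)))
    have k1 : v.valuation K (E1.eval T) ≤ 1 := by
      have e : E1.eval T = (E1.eval T - E1.eval 0) + E1.eval 0 := by ring
      rw [e]
      exact (v.valuation K).map_add_le g1.le (hi1 v hvS)
    have k2 : v.valuation K (E2.eval T) ≤ 1 := by
      have e : E2.eval T = (E2.eval T - E2.eval 0) + E2.eval 0 := by ring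
      rw [e]
      exact (v.valuation K).map_add_le g2.le (hi2 v hvS)
    have k3 : v.valuation K (E3.eval T) = 1 := by
      have e : E3.eval T = (E3.eval T - E3.eval 0) + E3.eval 0 := by ring
      rw [e, (v.valuation K).map_add_eq_of_lt_right (by rw [hi3 v hvS]; exact g3)]
      exact hi3 v hvS
    have h3 : v.valuation K (3 : K) ≤ 1 := by exact_mod_cast val_natCast_le v 3
    have h9 : v.valuation K (9 : K) ≤ 1 := by exact_mod_cast val_natCast_le v 9
    refine ⟨hTv, k1, k2, k3.le, ?_, fun h => ?_⟩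
    · rintro ⟨p1, p2⟩
      refine h0 v hvS ⟨?_, ?_⟩
      · have s := P_stable h3 (hi1 v hvS) k1 g1 g2
        have e : E1.eval 0 ^ 2 - 3 * E2.eval 0 = (E1.eval T ^ 2 - 3 * E2.eval T) -
          ((E1.eval T ^ 2 - 3 * E2.eval T) - (E1.eval 0 ^ 2 - 3 * E2.eval 0)) := by ring
        rw [e]
        exact (v.valuation K).map_sub_lt p1 s
      · have s := R_stable h9 (hi2 v hvS) k1 g1 g2 g3
        have e : E1.eval 0 * E2.eval 0 - 9 * E3.eval 0 = (E1.eval T * E2.eval T - 9 * E3.eval T) -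
          ((E1.eval T * E2.eval T - 9 * E3.eval T) -
            (E1.eval 0 * E2.eval 0 - 9 * E3.eval 0)) := by ring
        rw [e]
        exact (v.valuation K).map_sub_lt p2 s
    · rw [k3] at h
      exact lt_irrefl _ h.2
  · have hco : ∀ f ∈ [A, B, C, D, E1, E2, E3], v.valuation K (f.eval T) ≤ 1 := by
      intro f hf
      refine eval_le _ (fun i => ?_) hTv
      by_contra hlt
      rw [not_le] at hlt
      refine hb ?_
      simp only [List.mem_cons, List.not_mem_nil, or_false] at hf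
      simp only [Bd, Set.mem_union, Set.mem_ofPred_eq]
      rcases hf with rfl | rfl | rfl | rfl | rfl | rfl | rfl
      · exact Or.inl (Or.inl (Or.inl (Or.inl (Or.inl (Or.inl ⟨i, hlt⟩)))))
      · exact Or.inl (Or.inl (Or.inl (Or.inl (Or.inl (Or.inr ⟨i, hlt⟩)))))
      · exact Or.inl (Or.inl (Or.inl (Or.inl (Or.inr ⟨i, hlt⟩))))
      · exact Or.inl (Or.inl (Or.inl (Or.inr ⟨i, hlt⟩)))
      · exact Or.inl (Or.inl (Or.inr ⟨i, hlt⟩))
      · exact Or.inl (Or.inr ⟨i, hlt⟩)
      · exact Or.inr ⟨i, hlt⟩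
    refine ⟨hTv, hco E1 (by simp), hco E2 (by simp), hco E3 (by simp), ?_, ?_⟩
    · refine not_both (hco A (by simp)) (hco B (by simp)) ?_
      have := congrArg (eval T) hAB
      simpa using this
    · refine not_both (hco C (by simp)) (hco D (by simp)) ?_
      have := congrArg (eval T) hCD
      simpa using this

end Vale.Agent.P011.H83.ExT
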