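import Mathlib

/-!
# Limits of families of measures along an ultrafilter

A family of measures whose integrals of compactly supported continuous functions are bounded
has a limit along every ultrafilter, and the limit inherits upper bounds.
-/

open MeasureTheory Filter Topology
open scoped CompactlySupported ENNReal NNReal

namespace Vale.Agent.P011.H83

section limit

variable {X : Type*} [TopologicalSpace X] [LocallyCompactSpace X] [T2Space X] [MeasurableSpace X]
  [BorelSpace X]

/-- The limit measure. -/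
theorem exists_limit_measure {A : Type*} (U : Ultrafilter A) (ν : A → Measure X)
    (hb : ∀ φ : C_c(X, ℝ), ∃ M : ℝ, ∀ᶠ a in (U : Filter A),
      Integrable φ (ν a) ∧ |∫ x, φ x ∂(ν a)| ≤ M) :
    ∃ m : Measure X, m.Regular ∧
      ∀ φ : C_c(X, ℝ), Tendsto (fun a => ∫ x, φ x ∂(ν a)) U (𝓝 (∫ x, φ x ∂m)) := by
  have hint : ∀ φ : C_c(X, ℝ), ∀ᶠ a in (U : Filter A), Integrable φ (ν a) := fun φ => by
    obtain ⟨M, hM⟩ := hb φ
    exact hM.mono fun a h => h.1
  have hlim : ∀ φ : C_c(X, ℝ), ∃ y : ℝ, Tendsto (fun a => ∫ x, φ x ∂(ν a)) U (𝓝 y) := by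
    intro φ
    obtain ⟨M, hM⟩ := hb φ
    have hc : IsCompact (Set.Icc (-M) M) := isCompact_Icc
    have hle : (U.map fun a => ∫ x, φ x ∂(ν a) : Filter ℝ) ≤ 𝓟 (Set.Icc (-M) M) := by
      rw [le_principal_iff]
      exact hM.mono fun a h => abs_le.mp h.2
    obtain ⟨y, -, hy⟩ := hc.ultrafilter_le_nhds (U.map fun a => ∫ x, φ x ∂(ν a)) hle
    exact ⟨y, hy⟩
  choose L hL using hlim
  have hadd : ∀ φ ψ : C_c(X, ℝ), L (φ + ψ) = L φ + L ψ := by
    intro φ ψ
    refine tendsto_nhds_unique (hL (φ + ψ)) (((hL φ).add (hL ψ)).congr' ?_)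
    filter_upwards [hint φ, hint ψ] with a h1 h2
    rw [← integral_add h1 h2]
    rfl
  have hsmul : ∀ (t : ℝ) (φ : C_c(X, ℝ)), L (t • φ) = t • L φ := by
    intro t φ
    refine tendsto_nhds_unique (hL (t • φ)) (((hL φ).const_smul t).congr' ?_)
    filter_upwards [hint φ] with a h1
    rw [← integral_smul]
    rfl
  have hmono : ∀ φ ψ : C_c(X, ℝ), φ ≤ ψ → L φ ≤ L ψ := by
    intro φ ψ h
    refine le_of_tendsto_of_tendsto (hL φ) (hL ψ) ?_
    filter_upwards [hint φ, hint ψ] with a h1 h2
    exact integral_mono h1 h2 fun x => h x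
  let Λ : C_c(X, ℝ) →ₚ[ℝ] ℝ :=
    { toFun := L
      map_add' := hadd
      map_smul' := hsmul
      monotone' := fun φ ψ h => hmono φ ψ h }
  refine ⟨RealRMK.rieszMeasure Λ, inferInstance, fun φ => ?_⟩
  rw [RealRMK.integral_rieszMeasure]
  exact hL φ

/-- A regular measure which is dominated on compactly supported continuous functions is
dominated on pairs of a compact set and an open set containing it. -/
theorem measure_le_of_integral_le {m μ : Measure X} [m.Regular] [μ.Regular] (C : ℝ≥0)
    (h : ∀ φ : C_c(X, ℝ), (∀ x, 0 ≤ φ x) → ∫ x, φ x ∂m ≤ C * ∫ x, φ x ∂μ)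
    {K : Set X} (hK : IsCompact K) {V : Set X} (hV : IsOpen V) (hKV : K ⊆ V) :
    m K ≤ C * μ V := by
  obtain ⟨f, hf1, hf2, hf3, hf4⟩ := exists_continuousMap_one_of_isCompact_subset_isOpen hK
    hV hKV
  let φ : C_c(X, ℝ) := ⟨f, hasCompactSupport_def.mpr hf2⟩
  have h1 : ∫ x, φ x ∂m ≤ C * ∫ x, φ x ∂μ := h φ fun x => (hf4 x).1
  have h2 : m.real K ≤ ∫ x, φ x ∂m := by
    rw [← integral_indicator_one hK.measurableSet]
    refine integral_mono ((continuousOn_const.integrableOn_compact
      hK).integrable_indicator hK.measurableSet) φ.integrable fun x => ?_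
    by_cases hx : x ∈ K
    · rw [Set.indicator_of_mem hx]
      exact (hf1 hx).ge
    · rw [Set.indicator_of_notMem hx]
      exact (hf4 x).1
  by_cases hVt : μ V = ⊤
  · by_cases hC : C = 0
    · subst hC
      have h1' : ∫ x, φ x ∂m ≤ 0 := by simpa using h1
      have h3 : m.real K ≤ 0 := h2.trans h1'
      have h4 : m K = 0 := by
        have h5 : m.real K = 0 := le_antisymm h3 measureReal_nonneg
        rw [measureReal_def, ENNReal.toReal_eq_zero_iff] at h5
        exact h5.resolve_right hK.measure_lt_top.ne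
      rw [h4]
      exact bot_le
    · rw [hVt, ENNReal.mul_top (by exact_mod_cast hC)]
      exact le_top
  · have h3 : ∫ x, φ x ∂μ ≤ μ.real V := by
      rw [← integral_indicator_one hV.measurableSet]
      refine integral_mono φ.integrable (IntegrableOn.integrable_indicator
        (integrableOn_const hVt) hV.measurableSet) fun x => ?_
      by_cases hx : x ∈ V
      · rw [Set.indicator_of_mem hx]
        exact (hf4 x).2
      · rw [Set.indicator_of_notMem hx]
        have : x ∉ tsupport φ := fun hx' => hx (hf3 hx')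
        exact (image_eq_zero_of_notMem_tsupport this).le
    have h4 : m.real K ≤ C * μ.real V := h2.trans (h1.trans (mul_le_mul_of_nonneg_left h3 C.2))
    have h5 : m K = ENNReal.ofReal (m.real K) := by
      rw [measureReal_def, ENNReal.ofReal_toReal hK.measure_lt_top.ne]
    rw [h5]
    refine (ENNReal.ofReal_le_ofReal h4).trans ?_
    rw [ENNReal.ofReal_mul C.coe_nonneg, ENNReal.ofReal_coe_nnreal, measureReal_def,
      ENNReal.ofReal_toReal hVt]

/-- A regular measure which is dominated on compactly supported continuous functions is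
dominated. -/
theorem le_smul_of_integral_le {m μ : Measure X} [m.Regular] [μ.Regular] (C : ℝ≥0)
    (h : ∀ φ : C_c(X, ℝ), (∀ x, 0 ≤ φ x) → ∫ x, φ x ∂m ≤ C * ∫ x, φ x ∂μ) :
    m ≤ C • μ := by
  have hopen : ∀ V : Set X, IsOpen V → m V ≤ C * μ V := by
    intro V hV
    rw [hV.measure_eq_iSup_isCompact]
    exact iSup₂_le fun K hKV => iSup_le fun hK => measure_le_of_integral_le C h hK hV hKV
  rw [Measure.le_iff]
  intro s _
  rw [Measure.smul_apply, ENNReal.smul_def, smul_eq_mul]
  by_cases hC : C = 0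
  · subst hC
    refine (measure_mono (Set.subset_univ s)).trans ((hopen _ isOpen_univ).trans ?_)
    simp
  · refine ENNReal.le_of_forall_pos_le_add fun ε hε hlt => ?_
    have hs : μ s ≠ ⊤ := by
      intro h
      rw [h, ENNReal.mul_top (by exact_mod_cast hC)] at hlt
      exact lt_irrefl _ hlt
    have hε' : (ε / C : ℝ≥0) ≠ 0 := (div_pos hε (pos_iff_ne_zero.mpr hC)).ne'
    obtain ⟨V, hsV, hV, hVle⟩ := s.exists_isOpen_le_add μ (ε := ((ε / C : ℝ≥0) : ℝ≥0∞))
      (by exact_mod_cast hε')
    refine (measure_mono hsV).trans ((hopen V hV).trans ?_)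
    calc (C : ℝ≥0∞) * μ V ≤ C * (μ s + ((ε / C : ℝ≥0) : ℝ≥0∞)) := by gcongr
      _ = C * μ s + ε := by
        rw [mul_add, ← ENNReal.coe_mul, mul_div_cancel₀ _ hC]

end limit

end Vale.Agent.P011.H83
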