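import Vale.Agent.P011.H83.Cells

/-!
# Scalings

The hypothesis on scalars in `exists_cells` holds as soon as `R` has one unit whose powers tend to
`0` (every finite product of local fields, archimedean or not, of any characteristic).
-/

open MeasureTheory Filter Topology Set
open scoped ENNReal Pointwise NNReal

namespace Vale.Agent.P011.H83

section scaling

variable {R L : Type*} [CommRing R] [TopologicalSpace R]
  [AddCommGroup L] [Module R L] [TopologicalSpace L] [IsTopologicalAddGroup L] [T2Space L]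
  [LocallyCompactSpace L] [SecondCountableTopology L] [MeasurableSpace L] [BorelSpace L]

omit [TopologicalSpace R] [TopologicalSpace L] [IsTopologicalAddGroup L] [T2Space L]
  [LocallyCompactSpace L] [SecondCountableTopology L] [BorelSpace L] in
theorem Scales.one (lam : Measure L) : Scales (R := R) lam 1 1 := by
  intro s _
  rw [Units.val_one, one_smul, one_mul]

theorem Scales.mul [ContinuousConstSMul R L] {lam : Measure L} {r r' : Rˣ} {t t' : ℝ≥0∞}
    (h : Scales lam r t) (h' : Scales lam r' t') : Scales lam (r * r') (t * t') := by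
  intro s hs
  have hm : MeasurableSet ((r' : R) • s) := by
    rw [smul_eq_preimage]
    exact measurable_const_smul _ hs
  rw [Units.val_mul, mul_smul, h _ hm, h' s hs, mul_assoc]

theorem Scales.pow [ContinuousConstSMul R L] {lam : Measure L} {r : Rˣ} {t : ℝ≥0∞}
    (h : Scales lam r t) (k : ℕ) : Scales lam (r ^ k) (t ^ k) := by
  induction k with
  | zero => simpa using Scales.one (R := R) lam
  | succ k ih => rw [pow_succ, pow_succ]; exact ih.mul h

/-- Every unit scales the Haar measure. -/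
theorem exists_scales [ContinuousConstSMul R L] (lam : Measure L) [lam.IsAddHaarMeasure]
    (r : Rˣ) : ∃ t : ℝ, 0 < t ∧ Scales lam r (ENNReal.ofReal t) := by
  let e : L ≃+ L :=
    { toFun := fun x => ((r⁻¹ : Rˣ) : R) • x
      invFun := fun x => (r : R) • x
      left_inv := fun x => by
        change (r : R) • (((r⁻¹ : Rˣ) : R) • x) = x
        rw [smul_smul, Units.mul_inv, one_smul]
      right_inv := fun x => by
        change ((r⁻¹ : Rˣ) : R) • ((r : R) • x) = x
        rw [smul_smul, Units.inv_mul, one_smul]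
      map_add' := fun x y => smul_add _ _ _ }
  have he : Continuous e := continuous_const_smul _
  have he' : Continuous e.symm := continuous_const_smul (r : R)
  have hh : (lam.map e).IsAddHaarMeasure := e.isAddHaarMeasure_map lam he he'
  have h1 := Measure.isAddLeftInvariant_eq_smul (lam.map e) lam
  set c := Measure.addHaarScalarFactor (lam.map e) lam with hc
  have hcpos : 0 < c := Measure.addHaarScalarFactor_pos_of_isAddHaarMeasure _ _
  refine ⟨c, hcpos, fun s hs => ?_⟩
  rw [smul_eq_preimage]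
  have h2 : lam.map e s = lam (e ⁻¹' s) := Measure.map_apply he.measurable hs
  have h3 : (fun x : L => ((r⁻¹ : Rˣ) : R) • x) ⁻¹' s = e ⁻¹' s := rfl
  rw [h3, ← h2, h1, Measure.smul_apply]
  simp [ENNReal.ofReal, ENNReal.smul_def]

/-- A unit whose powers tend to `0` contracts the measure. -/
theorem lt_one_of_tendsto [ContinuousSMul R L] [Nontrivial L] (lam : Measure L)
    [lam.IsAddHaarMeasure] {r : Rˣ} (hr : Tendsto (fun k : ℕ => (r : R) ^ k) atTop (𝓝 0))
    {t : ℝ} (ht : 0 < t) (h : Scales lam r (ENNReal.ofReal t)) : t < 1 := by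
  by_contra hlt
  push Not at hlt
  obtain ⟨K, hK, hKn⟩ := exists_compact_mem_nhds (0 : L)
  -- the measure of every neighbourhood of `0` is at least that of `K`
  have h1 : ∀ (M N : Set L), IsCompact M → N ∈ 𝓝 (0 : L) → lam M ≤ lam N := by
    intro M N hM hN
    obtain ⟨k, hk⟩ := (eventually_smul_subset hr hM hN).exists
    have h2 := h.pow k M hM.measurableSet
    rw [Units.val_pow_eq_pow_val] at h2
    calc lam M ≤ ENNReal.ofReal t ^ k * lam M := by
          refine le_mul_of_one_le_left zero_le (one_le_pow₀ ?_)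
          rw [← ENNReal.ofReal_one]
          exact ENNReal.ofReal_le_ofReal hlt
      _ = lam ((r : R) ^ k • M) := h2.symm
      _ ≤ lam N := measure_mono hk
  -- the measure is finite
  have h2 : ∀ M : Set L, IsCompact M → lam M ≤ lam K := fun M hM => h1 M K hM hKn
  have hKfin : lam K < ∞ := hK.measure_lt_top
  have hKpos : 0 < lam K := Measure.measure_pos_of_mem_nhds lam hKn
  obtain ⟨x, hx⟩ := exists_ne (0 : L)
  -- two disjoint neighbourhoods
  obtain ⟨u, v, hu, hv, hxu, h0v, huv⟩ := t2_separation hx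
  have hn : v ∩ (fun y => x + y) ⁻¹' u ∈ 𝓝 (0 : L) := by
    refine inter_mem (hv.mem_nhds h0v) ?_
    have hcont : Continuous fun y : L => x + y := by fun_prop
    refine hcont.continuousAt.preimage_mem_nhds ?_
    simpa using hu.mem_nhds hxu
  obtain ⟨K0, hK0, hK0s, hK0c⟩ := local_compact_nhds hn
  have hK0p : 0 < lam K0 := Measure.measure_pos_of_mem_nhds lam hK0
  have hxK : lam ((fun y => x + y) '' K0) = lam K0 := by
    rw [image_add_left]
    exact measure_preimage_add lam _ _
  have hcx : IsCompact ((fun y => x + y) '' K0) := hK0c.image (by fun_prop)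
  have hdisj : Disjoint K0 ((fun y => x + y) '' K0) := by
    rw [Set.disjoint_left]
    rintro y hy ⟨z, hz, rfl⟩
    exact Set.disjoint_left.1 huv (hK0s hz).2 (hK0s hy).1
  have h3 : lam (K0 ∪ (fun y => x + y) '' K0) = lam K0 + lam K0 := by
    rw [measure_union hdisj hcx.measurableSet, hxK]
  have h4 : lam (K0 ∪ (fun y => x + y) '' K0) ≤ lam K0 := h1 _ _ (hK0c.union hcx) hK0
  rw [h3] at h4
  have h5 : lam K0 < ∞ := hK0c.measure_lt_top
  have h6 : lam K0 < lam K0 + lam K0 := ENNReal.lt_add_right h5.ne hK0p.ne'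
  exact absurd h4 (not_le.2 h6)

/-- **Scalings from one contracting unit.** -/
theorem exists_scaling [ContinuousSMul R L] [Nontrivial L] (lam : Measure L)
    [lam.IsAddHaarMeasure] (r : Rˣ) (hr : Tendsto (fun k : ℕ => (r : R) ^ k) atTop (𝓝 0)) :
    ∀ ε₀ : ℝ, 0 < ε₀ → ∃ c : ℝ, 0 < c ∧ ∃ ρ : ℝ → Rˣ,
      Tendsto (fun Q => (ρ Q : R)) atTop (𝓝 0) ∧
      ∀ᶠ Q in atTop, ∃ t : ℝ, Scales lam (ρ Q) (ENNReal.ofReal t) ∧ c / Q ≤ t ∧ t ≤ ε₀ / Q := by
  intro ε₀ hε
  obtain ⟨t, ht, hS⟩ := exists_scales lam r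
  have ht1 := lt_one_of_tendsto lam hr ht hS
  -- the exponent
  have hex : ∀ Q : ℝ, ∃ k : ℕ, 0 < Q → t ^ k ≤ ε₀ / Q := by
    intro Q
    by_cases hQ : 0 < Q
    · obtain ⟨k, hk⟩ := exists_pow_lt_of_lt_one (div_pos hε hQ) ht1
      exact ⟨k, fun _ => hk.le⟩
    · exact ⟨0, fun h => absurd h hQ⟩
  classical
  let κ : ℝ → ℕ := fun Q => Nat.find (hex Q)
  have hκ : ∀ Q, 0 < Q → t ^ κ Q ≤ ε₀ / Q := fun Q => Nat.find_spec (hex Q)
  have hκ' : ∀ Q, 0 < Q → ∀ k < κ Q, ε₀ / Q < t ^ k := by
    intro Q hQ k hk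
    have h1 := Nat.find_min (hex Q) hk
    push Not at h1
    exact h1.2
  have hκt : Tendsto κ atTop atTop := by
    rw [tendsto_atTop]
    intro b
    have h1 : Tendsto (fun Q : ℝ => ε₀ / Q) atTop (𝓝 0) := tendsto_const_nhds.div_atTop tendsto_id
    filter_upwards [h1 (Iio_mem_nhds (pow_pos ht b)), eventually_gt_atTop (0 : ℝ)] with Q hQ hQ0
    by_contra hb
    push Not at hb
    have h2 : t ^ b ≤ t ^ κ Q := pow_le_pow_of_le_one ht.le ht1.le hb.le
    have h3 : ε₀ / Q < t ^ b := hQ
    exact absurd (h2.trans (hκ Q hQ0)) (not_le.2 h3)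
  refine ⟨t * ε₀, mul_pos ht hε, fun Q => r ^ κ Q, ?_, ?_⟩
  · have h1 := hr.comp hκt
    refine h1.congr fun Q => ?_
    simp
  · have h1 : Tendsto (fun Q : ℝ => ε₀ / Q) atTop (𝓝 0) := tendsto_const_nhds.div_atTop tendsto_id
    filter_upwards [eventually_gt_atTop (0 : ℝ), h1 (Iio_mem_nhds one_pos)] with Q hQ hQ1
    refine ⟨t ^ κ Q, ?_, ?_, hκ Q hQ⟩
    · have h2 := hS.pow (κ Q)
      rwa [← ENNReal.ofReal_pow ht.le] at h2
    · have hpos : 0 < κ Q := by
        rcases Nat.eq_zero_or_pos (κ Q) with h0 | h0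
        · have h2 := hκ Q hQ
          rw [h0, pow_zero] at h2
          exact absurd h2 (not_le.2 hQ1)
        · exact h0
      have h2 := hκ' Q hQ (κ Q - 1) (Nat.sub_lt hpos one_pos)
      have h3 : t ^ κ Q = t * t ^ (κ Q - 1) := by
        rw [← pow_succ', Nat.sub_add_cancel hpos]
      rw [h3, mul_div_assoc]
      exact mul_le_mul_of_nonneg_left h2.le ht.le

end scaling

section cells

variable {R E L : Type*} [CommRing R] [TopologicalSpace R] [Ring E] [StarRing E]
  [TopologicalSpace E] [IsTopologicalRing E] [ContinuousStar E] [T2Space E]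
  [LocallyCompactSpace E] [MeasurableSpace E] [BorelSpace E] [Algebra R E] [ContinuousSMul R E]
  [AddCommGroup L] [Module R L] [TopologicalSpace L] [IsTopologicalAddGroup L] [T2Space L]
  [LocallyCompactSpace L] [SecondCountableTopology L] [MeasurableSpace L] [BorelSpace L]
  [ContinuousSMul R L] [LocallyCompactSpace (unitary E)] [MeasurableSpace (unitary E)]
  [BorelSpace (unitary E)] [Nontrivial L]

/-- **Small cells**, from one contracting unit. -/
theorem exists_cells_of_unit (D : SymData R E L) (lam : Measure L) [lam.IsAddHaarMeasure]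
    (μ : Measure (unitary E)) [μ.IsHaarMeasure]
    {C1 : Set (unitary E)} (hC1 : IsCompact C1) (hC1μ : μ C1 ≠ 0)
    (J : E → E) {K1 : Set E} (hK1 : IsCompact K1) (hJK : ∀ g ∈ C1, J (g : E) ∈ K1)
    (hJ1 : ∀ g ∈ C1, ((g : E) - 1) * J g = 1) (hJ2 : ∀ g ∈ C1, J g * ((g : E) - 1) = 1)
    {W : Set E} (hW : IsCompact W) (hWμ : D.haarE lam W ≠ 0)
    {P : Type*} (pos : P → unitary E) (den : P → ℝ) (hden : ∀ p, 0 ≤ den p)
    (hsp : ∀ p p', p ≠ p' → D.haarE lam W ≤ ENNReal.ofReal (den p * den p') *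
      D.haarE lam ((fun y => (((pos p)⁻¹ * pos p' : unitary E) - 1 : E) * y) '' W))
    (r : Rˣ) (hr : Tendsto (fun k : ℕ => (r : R) ^ k) atTop (𝓝 0)) :
    ∃ (B : ℝ → Set (unitary E)) (c : ℝ), 0 < c ∧ (∀ Q, MeasurableSet (B Q)) ∧
      (∀ V ∈ 𝓝 (1 : unitary E), ∀ᶠ Q in atTop, B Q ⊆ V) ∧
      (∀ᶠ Q in atTop, c / Q ≤ μ.real (B Q)) ∧
      (∀ᶠ Q in atTop, ∀ p p', den p ≤ Q → den p' ≤ Q → p ≠ p' →
        ∀ b ∈ B Q, ∀ b' ∈ B Q, pos p * b ≠ pos p' * b') :=
  exists_cells D lam μ hC1 hC1μ J hK1 hJK hJ1 hJ2 hW hWμ pos den hden hsp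
    (exists_scaling lam r hr)

end cells

end Vale.Agent.P011.H83
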