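import Mathlib

/-!
# Haar measure of small balls in a chart

`G` is a group with a left invariant measure `μ`, `V` an additive group with a translation
invariant measure `lam`, and `u : V → G` a chart on a set `S₀`. If `u s⁻¹ * u s' ∈ B` whenever
`s, s' ∈ S₀` and `(s + b) ∩ (s' + b)` is nonempty, then
`μ (u '' S₀) * lam b ≤ μ B * lam (S₀ + b)`. In particular the measure of small balls of the group
is at least a constant times the measure of small balls of the chart.
-/

open MeasureTheory Set
open scoped ENNReal Pointwise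

namespace Vale.Agent.P011.H83

variable {G V : Type*} [Group G] [MeasurableSpace G] [MeasurableMul G] [AddCommGroup V]
  [MeasurableSpace V] [MeasurableAdd V]

/-- A finite family of pairwise disjoint translates of `b` with centres in `S₀`. -/
theorem card_mul_le (lam : Measure V) [lam.IsAddLeftInvariant] {S₀ b : Set V}
    (hb : MeasurableSet b) (F : Finset V) (hF : (F : Set V) ⊆ S₀)
    (hd : (F : Set V).PairwiseDisjoint fun s => (fun x => s + x) '' b) :
    (F.card : ℝ≥0∞) * lam b ≤ lam (S₀ + b) := by
  have hmeas : ∀ s : V, MeasurableSet ((fun x => s + x) '' b) := fun s => by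
    have : (fun x => s + x) '' b = (fun x => -s + x) ⁻¹' b := by
      ext y
      simp only [mem_image, mem_preimage]
      constructor
      · rintro ⟨x, hx, rfl⟩
        simpa using hx
      · intro h
        exact ⟨_, h, by simp⟩
    rw [this]
    exact measurable_const_add (-s) hb
  have hlam : ∀ s : V, lam ((fun x => s + x) '' b) = lam b := fun s => by
    have : (fun x => s + x) '' b = (fun x => -s + x) ⁻¹' b := by
      ext y
      simp only [mem_image, mem_preimage]
      constructor
      · rintro ⟨x, hx, rfl⟩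
        simpa using hx
      · intro h
        exact ⟨_, h, by simp⟩
    rw [this, measure_preimage_add]
  calc (F.card : ℝ≥0∞) * lam b = ∑ s ∈ F, lam ((fun x => s + x) '' b) := by
        rw [Finset.sum_congr rfl fun s _ => hlam s, Finset.sum_const, nsmul_eq_mul]
    _ = lam (⋃ s ∈ F, (fun x => s + x) '' b) :=
        (measure_biUnion_finset hd fun s _ => hmeas s).symm
    _ ≤ lam (S₀ + b) := by
        refine measure_mono (iUnion₂_subset fun s hs => ?_)
        rintro _ ⟨x, hx, rfl⟩
        exact add_mem_add (hF hs) hx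

/-- **Small balls.** -/
theorem small_ball (μ : Measure G) [μ.IsMulLeftInvariant] (lam : Measure V)
    [lam.IsAddLeftInvariant] {S₀ b : Set V} (hb : MeasurableSet b) (hb0 : lam b ≠ 0)
    (hfin : lam (S₀ + b) ≠ ⊤) (u : V → G) {B : Set G}
    (hB : ∀ s ∈ S₀, ∀ s' ∈ S₀, (∃ x ∈ b, ∃ y ∈ b, s + x = s' + y) → (u s)⁻¹ * u s' ∈ B) :
    μ (u '' S₀) * lam b ≤ μ B * lam (S₀ + b) := by
  classical
  -- a maximal packing
  let P : ℕ → Prop := fun n => ∃ F : Finset V, F.card = n ∧ (F : Set V) ⊆ S₀ ∧
    (F : Set V).PairwiseDisjoint fun s => (fun x => s + x) '' b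
  have hP0 : P 0 := ⟨∅, rfl, by simp, by simp⟩
  obtain ⟨M, hM⟩ : ∃ M : ℕ, ∀ n, P n → n ≤ M := by
    have hq : lam (S₀ + b) / lam b ≠ ⊤ := ENNReal.div_ne_top hfin hb0
    obtain ⟨M, hM⟩ := ENNReal.exists_nat_gt hq
    refine ⟨M, ?_⟩
    rintro n ⟨F, rfl, hF, hd⟩
    have h1 := card_mul_le lam hb F hF hd
    by_cases hbt : lam b = ⊤
    · by_cases hc : F.card = 0
      · rw [hc]
        exact Nat.zero_le _
      · exfalso
        rw [hbt, ENNReal.mul_top (by exact_mod_cast hc)] at h1
        exact hfin (top_le_iff.mp h1)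
    · have h2 : (F.card : ℝ≥0∞) ≤ lam (S₀ + b) / lam b :=
        (ENNReal.le_div_iff_mul_le (Or.inl hb0) (Or.inl hbt)).mpr h1
      have h3 : (F.card : ℝ≥0∞) < M := h2.trans_lt hM
      exact_mod_cast h3.le
  obtain ⟨n, ⟨F, hFn, hF, hd⟩, hmax⟩ : ∃ n, P n ∧ ∀ m, P m → m ≤ n := by
    by_contra hcon
    push Not at hcon
    have : ∀ n, ∃ m, n ≤ m ∧ P m := by
      intro n
      induction n with
      | zero => exact ⟨0, le_refl _, hP0⟩
      | succ n ih =>
        obtain ⟨m, hm, hPm⟩ := ih
        obtain ⟨m', hPm', hlt⟩ := hcon m hPm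
        exact ⟨m', by omega, hPm'⟩
    obtain ⟨m, hm, hPm⟩ := this (M + 1)
    have := hM m hPm
    omega
  -- the packing is a covering
  have hcov : u '' S₀ ⊆ ⋃ s ∈ F, (fun x => u s * x) '' B := by
    rintro _ ⟨s', hs', rfl⟩
    by_contra hcon
    simp only [mem_iUnion, not_exists] at hcon
    have hdisj : ∀ s ∈ F, Disjoint ((fun x => s + x) '' b) ((fun x => s' + x) '' b) := by
      intro s hs
      rw [Set.disjoint_left]
      rintro _ ⟨x, hx, rfl⟩ ⟨y, hy, hxy⟩
      refine hcon s hs ⟨(u s)⁻¹ * u s', hB s (hF hs) s' hs' ⟨x, hx, y, hy, hxy.symm⟩, ?_⟩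
      simp
    by_cases hmem : s' ∈ F
    · have h1 := hdisj s' hmem
      rw [disjoint_self] at h1
      have h2 : b = ∅ := image_eq_empty.mp h1
      exact hb0 (by rw [h2, measure_empty])
    · have h1 : P (n + 1) := by
        refine ⟨insert s' F, by rw [Finset.card_insert_of_notMem hmem, hFn], ?_, ?_⟩
        · rw [Finset.coe_insert]
          exact insert_subset hs' hF
        · rw [Finset.coe_insert]
          refine hd.insert fun s hs _ => ?_
          exact (hdisj s hs).symm
      have := hmax _ h1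
      omega
  have hμ : ∀ g : G, μ ((fun x => g * x) '' B) ≤ μ B := by
    intro g
    have : (fun x => g * x) '' B = (fun x => g⁻¹ * x) ⁻¹' B := by
      ext y
      simp only [mem_image, mem_preimage]
      constructor
      · rintro ⟨x, hx, rfl⟩
        simpa using hx
      · intro h
        exact ⟨_, h, by simp⟩
    rw [this, measure_preimage_mul]
  have h1 : μ (u '' S₀) ≤ F.card * μ B := by
    calc μ (u '' S₀) ≤ μ (⋃ s ∈ F, (fun x => u s * x) '' B) := measure_mono hcov
      _ ≤ ∑ s ∈ F, μ ((fun x => u s * x) '' B) := measure_biUnion_finset_le _ _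
      _ ≤ ∑ _s ∈ F, μ B := Finset.sum_le_sum fun s _ => hμ _
      _ = F.card * μ B := by rw [Finset.sum_const, nsmul_eq_mul]
  calc μ (u '' S₀) * lam b ≤ F.card * μ B * lam b := by gcongr
    _ = μ B * (F.card * lam b) := by ring
    _ ≤ μ B * lam (S₀ + b) := by
        gcongr
        exact card_mul_le lam hb F hF hd

end Vale.Agent.P011.H83
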