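import Mathlib

/-!
# Coordinates of the symmetric elements of an algebra with involution of the second kind

`E` is a topological `R`-algebra with `R`-linear involution, `w` a central element with
`w - star w` invertible, `L` a coordinate space of the symmetric elements. Then
`E = σ L + w σ L`, and a scalar which multiplies the measure on `L` by `t` multiplies the product
measure on `E` by `t ^ 2`.
-/

open MeasureTheory Filter Topology Set
open scoped ENNReal Pointwise

namespace Vale.Agent.P011.H83

/-- The symmetric elements of `E` in coordinates. -/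
structure SymData (R E L : Type*) [CommRing R] [Ring E] [StarRing E] [TopologicalSpace E]
    [Algebra R E] [AddCommGroup L] [Module R L] [TopologicalSpace L] where
  /-- central element -/
  w : E
  /-- inverse of `w - star w` -/
  wi : E
  comm : ∀ x, w * x = x * w
  mul_wi : (w - star w) * wi = 1
  /-- the parametrization of the symmetric elements -/
  σ : L →ₗ[R] E
  /-- coordinates -/
  τ : E →ₗ[R] L
  hσ : Continuous σ
  hτ : Continuous τ
  star_σ : ∀ a, star (σ a) = σ a
  τσ : ∀ a, τ (σ a) = a
  στ : ∀ x, star x = x → σ (τ x) = x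

namespace SymData

variable {R E L : Type*} [CommRing R] [Ring E] [StarRing E] [TopologicalSpace E]
  [Algebra R E] [AddCommGroup L] [Module R L] [TopologicalSpace L] (D : SymData R E L)

theorem star_w_comm (x : E) : star D.w * x = x * star D.w := by
  have h := congrArg star (D.comm (star x))
  rw [star_mul, star_mul, star_star] at h
  exact h.symm

theorem wi_comm (x : E) : D.wi * x = x * D.wi := by
  have h1 : ∀ y, (D.w - star D.w) * y = y * (D.w - star D.w) := fun y => by
    rw [sub_mul, mul_sub, D.comm, D.star_w_comm]
  have h2 : D.wi * (D.w - star D.w) = 1 := by rw [← h1, D.mul_wi]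
  calc D.wi * x = D.wi * x * ((D.w - star D.w) * D.wi) := by rw [D.mul_wi, mul_one]
    _ = D.wi * (x * (D.w - star D.w)) * D.wi := by noncomm_ring
    _ = D.wi * ((D.w - star D.w) * x) * D.wi := by rw [h1]
    _ = (D.wi * (D.w - star D.w)) * x * D.wi := by noncomm_ring
    _ = x * D.wi := by rw [h2, one_mul]

theorem wi_mul : D.wi * (D.w - star D.w) = 1 := by rw [D.wi_comm, D.mul_wi]

theorem star_wi : star D.wi = -D.wi := by
  have h := congrArg star D.mul_wi
  rw [star_mul, star_sub, star_star, star_one] at h
  calc star D.wi = star D.wi * ((D.w - star D.w) * D.wi) := by rw [D.mul_wi, mul_one]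
    _ = -(star D.wi * (star D.w - D.w)) * D.wi := by noncomm_ring
    _ = -D.wi := by rw [h, neg_mul, one_mul]

/-- The component of `w`. -/
noncomputable def snd (x : E) : L := D.τ (D.wi * (x - star x))

theorem σ_snd (x : E) : D.σ (D.snd x) = D.wi * (x - star x) := by
  refine D.στ _ ?_
  rw [star_mul, star_sub, star_star, D.star_wi, D.wi_comm]
  noncomm_ring

theorem star_sub_w (x : E) : star (x - D.w * D.σ (D.snd x)) = x - D.w * D.σ (D.snd x) := by
  have h1 : star (D.w * D.σ (D.snd x)) = star D.w * D.σ (D.snd x) := by
    rw [star_mul, D.star_σ, D.star_w_comm]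
  have h2 : (D.w - star D.w) * D.σ (D.snd x) = x - star x := by
    rw [D.σ_snd, ← mul_assoc, D.mul_wi, one_mul]
  rw [star_sub, h1]
  have h3 : D.w * D.σ (D.snd x) = x - star x + star D.w * D.σ (D.snd x) := by
    rw [← h2]
    noncomm_ring
  rw [h3]
  noncomm_ring

/-- `E = σ L + w σ L`. -/
noncomputable def eqv [IsTopologicalRing E] [ContinuousStar E] : (L × L) ≃ₜ E where
  toFun p := D.σ p.1 + D.w * D.σ p.2
  invFun x := (D.τ (x - D.w * D.σ (D.snd x)), D.snd x)
  left_inv := by
    rintro ⟨a, b⟩
    have h1 : D.σ a + D.w * D.σ b - star (D.σ a + D.w * D.σ b) = (D.w - star D.w) * D.σ b := by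
      rw [star_add, star_mul, D.star_σ, D.star_σ, ← D.star_w_comm]
      noncomm_ring
    have h2 : D.snd (D.σ a + D.w * D.σ b) = b := by
      rw [snd, h1, ← mul_assoc, D.wi_mul, one_mul, D.τσ]
    simp only [h2, add_sub_cancel_right, D.τσ]
  right_inv x := by
    simp only
    rw [D.στ _ (D.star_sub_w x)]
    noncomm_ring
  continuous_toFun := by
    have := D.hσ
    fun_prop
  continuous_invFun := by
    have h1 := D.hσ
    have h2 := D.hτ
    have h3 : Continuous D.snd := by
      unfold snd
      fun_prop
    fun_prop

theorem eqv_apply [IsTopologicalRing E] [ContinuousStar E] (p : L × L) :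
    D.eqv p = D.σ p.1 + D.w * D.σ p.2 := rfl

theorem eqv_add [IsTopologicalRing E] [ContinuousStar E] (p q : L × L) :
    D.eqv (p + q) = D.eqv p + D.eqv q := by
  rw [eqv_apply, eqv_apply, eqv_apply, Prod.fst_add, Prod.snd_add, map_add, map_add]
  noncomm_ring

theorem eqv_smul [IsTopologicalRing E] [ContinuousStar E] (r : R) (p : L × L) :
    D.eqv (r • p) = r • D.eqv p := by
  rw [eqv_apply, eqv_apply, Prod.smul_fst, Prod.smul_snd, map_smul, map_smul, mul_smul_comm,
    smul_add]

/-- The Haar measure on `E`. -/
noncomputable def haarE [IsTopologicalRing E] [ContinuousStar E] [MeasurableSpace L]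
    [MeasurableSpace E] (lam : Measure L) : Measure E :=
  (lam.prod lam).map D.eqv

end SymData

end Vale.Agent.P011.H83
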